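/-
P076 / helper263: the weights `W_r` of blueprint #5061 and their Fourier multipliers.

`Wr r x = (2 / (π r)) (1 + (x/r)²)⁻²`,  `Wm r a = (1 + 2πr|a|) e^{-2πr|a|}`,
`Wr r x = ∫ Wm r a e^{2πiax} da`.
-/
import Mathlib

namespace Vale.Agent.P076.H263

open MeasureTheory Set Filter Real
open scoped Topology

/-- The weight `W_r`. -/
noncomputable def Wr (r x : ℝ) : ℝ := 2 / (π * r) * ((1 + (x / r) ^ 2) ^ 2)⁻¹

/-- The multiplier of `W_r`. -/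
noncomputable def Wm (r a : ℝ) : ℝ := (1 + 2 * π * r * |a|) * exp (-(2 * π * r * |a|))

section basic

theorem Wr_pos {r : ℝ} (hr : 0 < r) (x : ℝ) : 0 < Wr r x := by
  unfold Wr; positivity

theorem Wr_nonneg {r : ℝ} (hr : 0 < r) (x : ℝ) : 0 ≤ Wr r x := (Wr_pos hr x).le

theorem Wr_neg (r x : ℝ) : Wr r (-x) = Wr r x := by
  unfold Wr; rw [neg_div, neg_sq]

theorem Wr_sub_comm (r x y : ℝ) : Wr r (x - y) = Wr r (y - x) := by
  rw [← Wr_neg, neg_sub]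

theorem Wr_le {r : ℝ} (hr : 0 < r) (x : ℝ) : Wr r x ≤ 2 / (π * r) := by
  unfold Wr
  have h : ((1 + (x / r) ^ 2) ^ 2)⁻¹ ≤ 1 := by
    apply inv_le_one_of_one_le₀
    nlinarith [sq_nonneg (x / r), sq_nonneg ((x / r) ^ 2)]
  calc _ ≤ 2 / (π * r) * 1 := mul_le_mul_of_nonneg_left h (by positivity)
    _ = _ := mul_one _

theorem continuous_Wr (r : ℝ) : Continuous (Wr r) := by
  unfold Wr
  refine continuous_const.mul (Continuous.inv₀ (by fun_prop) fun x => ?_)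
  positivity

/-- Submultiplicative comparison: shifting costs `4 (1+|h|/r)^4`. -/
theorem Wr_shift_le {r : ℝ} (hr : 0 < r) (x h : ℝ) :
    Wr r (x + h) ≤ 4 * (1 + |h| / r) ^ 4 * Wr r x := by
  unfold Wr
  set u := x / r
  set v := h / r
  have hv : |h| / r = |v| := by simp only [v, abs_div, abs_of_pos hr]
  have hxv : (x + h) / r = u + v := by simp only [u, v]; ring
  rw [hv, hxv]
  have h1 : 1 + u ^ 2 ≤ 2 * (1 + |v|) ^ 2 * (1 + (u + v) ^ 2) := by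
    have hv0 := abs_nonneg v
    have hvs : v ^ 2 = |v| ^ 2 := (sq_abs v).symm
    have e1 : u ^ 2 ≤ 2 * (u + v) ^ 2 + 2 * v ^ 2 := by nlinarith [sq_nonneg (u + 2 * v)]
    have e2 : (1 : ℝ) + |v| ^ 2 ≤ (1 + |v|) ^ 2 := by nlinarith
    nlinarith [sq_nonneg (u + v), mul_nonneg (sq_nonneg |v|) (sq_nonneg (u + v))]
  have hA : 0 < 1 + u ^ 2 := by positivity
  have hB : 0 < 1 + (u + v) ^ 2 := by positivity
  have h2 : ((1 + (u + v) ^ 2) ^ 2)⁻¹ ≤ 4 * (1 + |v|) ^ 4 * ((1 + u ^ 2) ^ 2)⁻¹ := by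
    rw [inv_eq_one_div, div_le_iff₀ (by positivity), ← div_eq_mul_inv, div_mul_eq_mul_div,
      le_div_iff₀ (by positivity), one_mul]
    calc (1 + u ^ 2) ^ 2 ≤ (2 * (1 + |v|) ^ 2 * (1 + (u + v) ^ 2)) ^ 2 := by gcongr
      _ = _ := by ring
  calc 2 / (π * r) * ((1 + (u + v) ^ 2) ^ 2)⁻¹
      ≤ 2 / (π * r) * (4 * (1 + |v|) ^ 4 * ((1 + u ^ 2) ^ 2)⁻¹) :=
        mul_le_mul_of_nonneg_left h2 (by positivity)
    _ = _ := by ring

/-- Relative Lipschitz estimate for `W_r`. -/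
theorem Wr_lip {r : ℝ} (hr : 0 < r) (x h : ℝ) :
    |Wr r (x + h) - Wr r x| ≤ 9 * (|h| / r) * (1 + |h| / r) ^ 3 * Wr r x := by
  unfold Wr
  set u := x / r
  set v := h / r
  have hv : |h| / r = |v| := by simp only [v, abs_div, abs_of_pos hr]
  have hxv : (x + h) / r = u + v := by simp only [u, v]; ring
  rw [hv, hxv]
  set y := u + v with hy
  have hu : u = y - v := by simp [hy]
  have hA : 0 < 1 + u ^ 2 := by positivity
  have hB : 0 < 1 + y ^ 2 := by positivity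
  have hv0 := abs_nonneg v
  have hy0 := abs_nonneg y
  -- the numerator
  have hnum : |(1 + u ^ 2) ^ 2 - (1 + y ^ 2) ^ 2| ≤ 9 * |v| * (1 + |v|) ^ 3 * (1 + y ^ 2) ^ 2 := by
    have e1 : (1 + u ^ 2) ^ 2 - (1 + y ^ 2) ^ 2 = (-v) * (2 * y - v) * (2 + u ^ 2 + y ^ 2) := by
      rw [hu]; ring
    have e2 : |2 * y - v| ≤ 2 * (1 + |y|) * (1 + |v|) := by
      calc |2 * y - v| ≤ |2 * y| + |v| := abs_sub _ _
        _ = 2 * |y| + |v| := by rw [abs_mul, abs_two]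
        _ ≤ 2 * (1 + |y|) * (1 + |v|) := by nlinarith [mul_nonneg hy0 hv0]
    have e3 : 2 + u ^ 2 + y ^ 2 ≤ 3 * (1 + y ^ 2) * (1 + |v|) ^ 2 := by
      have hvs : v ^ 2 = |v| ^ 2 := (sq_abs v).symm
      have : u ^ 2 ≤ 2 * y ^ 2 + 2 * v ^ 2 := by rw [hu]; nlinarith [sq_nonneg (y + v)]
      nlinarith [sq_nonneg y, mul_nonneg (sq_nonneg y) (sq_nonneg |v|), mul_nonneg (sq_nonneg y) hv0]
    have e4 : 1 + |y| ≤ 3 / 2 * (1 + y ^ 2) := by
      have : y ^ 2 = |y| ^ 2 := (sq_abs y).symm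
      nlinarith [sq_nonneg (|y| - 1), sq_nonneg (3 * |y| - 1)]
    have e30 : 0 ≤ 2 + u ^ 2 + y ^ 2 := by positivity
    rw [e1, abs_mul, abs_mul, abs_neg, abs_of_nonneg e30]
    calc |v| * |2 * y - v| * (2 + u ^ 2 + y ^ 2)
        ≤ |v| * (2 * (1 + |y|) * (1 + |v|)) * (3 * (1 + y ^ 2) * (1 + |v|) ^ 2) := by gcongr
      _ ≤ |v| * (2 * (3 / 2 * (1 + y ^ 2)) * (1 + |v|)) * (3 * (1 + y ^ 2) * (1 + |v|) ^ 2) := by
          gcongr
      _ = 9 * |v| * (1 + |v|) ^ 3 * (1 + y ^ 2) ^ 2 := by ring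
  have hdiff : ((1 + y ^ 2) ^ 2)⁻¹ - ((1 + u ^ 2) ^ 2)⁻¹
      = ((1 + u ^ 2) ^ 2 - (1 + y ^ 2) ^ 2) * (((1 + y ^ 2) ^ 2)⁻¹ * ((1 + u ^ 2) ^ 2)⁻¹) := by
    field_simp
  rw [← mul_sub, abs_mul, abs_of_pos (by positivity : 0 < 2 / (π * r)), hdiff, abs_mul,
    abs_of_pos (by positivity : 0 < ((1 + y ^ 2) ^ 2)⁻¹ * ((1 + u ^ 2) ^ 2)⁻¹)]
  calc 2 / (π * r) * (|(1 + u ^ 2) ^ 2 - (1 + y ^ 2) ^ 2| *
          (((1 + y ^ 2) ^ 2)⁻¹ * ((1 + u ^ 2) ^ 2)⁻¹))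
      ≤ 2 / (π * r) * ((9 * |v| * (1 + |v|) ^ 3 * (1 + y ^ 2) ^ 2) *
          (((1 + y ^ 2) ^ 2)⁻¹ * ((1 + u ^ 2) ^ 2)⁻¹)) := by gcongr
    _ = 9 * |v| * (1 + |v|) ^ 3 * (2 / (π * r) * ((1 + u ^ 2) ^ 2)⁻¹) := by
        field_simp

/-- Comparison of different radii. -/
theorem Wr_le_of_le {r s : ℝ} (hr : 0 < r) (hrs : r ≤ s) (x : ℝ) :
    Wr r x ≤ s / r * Wr s x := by
  have hs : 0 < s := lt_of_lt_of_le hr hrs
  have e : ∀ t : ℝ, 0 < t → Wr t x = 2 / π * (t ^ 3 * ((t ^ 2 + x ^ 2) ^ 2)⁻¹) := by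
    intro t ht
    unfold Wr
    have : (1 + (x / t) ^ 2) = (t ^ 2 + x ^ 2) / t ^ 2 := by field_simp
    rw [this]
    have h2 : 0 < t ^ 2 + x ^ 2 := by positivity
    field_simp
  rw [e r hr, e s hs]
  have hrx : 0 < r ^ 2 + x ^ 2 := by positivity
  have hsx : 0 < s ^ 2 + x ^ 2 := by positivity
  have key : r ^ 3 * ((r ^ 2 + x ^ 2) ^ 2)⁻¹ ≤ s / r * (s ^ 3 * ((s ^ 2 + x ^ 2) ^ 2)⁻¹) := by
    rw [← div_eq_mul_inv, ← div_eq_mul_inv, div_mul_div_comm,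
      div_le_div_iff₀ (by positivity) (by positivity)]
    have h1 : r ^ 2 * (s ^ 2 + x ^ 2) ≤ s ^ 2 * (r ^ 2 + x ^ 2) := by
      have : r ^ 2 ≤ s ^ 2 := by gcongr
      nlinarith [sq_nonneg x]
    calc r ^ 3 * (r * (s ^ 2 + x ^ 2) ^ 2) = (r ^ 2 * (s ^ 2 + x ^ 2)) ^ 2 := by ring
      _ ≤ (s ^ 2 * (r ^ 2 + x ^ 2)) ^ 2 := by gcongr
      _ = s * s ^ 3 * (r ^ 2 + x ^ 2) ^ 2 := by ring
  calc 2 / π * (r ^ 3 * ((r ^ 2 + x ^ 2) ^ 2)⁻¹)
      ≤ 2 / π * (s / r * (s ^ 3 * ((s ^ 2 + x ^ 2) ^ 2)⁻¹)) :=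
        mul_le_mul_of_nonneg_left key (by positivity)
    _ = _ := by ring

theorem Wr_le_of_ge {r s : ℝ} (hr : 0 < r) (hrs : r ≤ s) (x : ℝ) :
    Wr s x ≤ (s / r) ^ 3 * Wr r x := by
  have hs : 0 < s := lt_of_lt_of_le hr hrs
  unfold Wr
  have h1 : (1 + (x / r) ^ 2) ≤ (s / r) ^ 2 * (1 + (x / s) ^ 2) := by
    have : (s / r) ^ 2 * (1 + (x / s) ^ 2) = (s / r) ^ 2 + (x / r) ^ 2 := by
      field_simp
    rw [this]
    have : 1 ≤ (s / r) ^ 2 := one_le_pow₀ ((one_le_div hr).2 hrs)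
    linarith
  have h2 : ((1 + (x / s) ^ 2) ^ 2)⁻¹ ≤ (s / r) ^ 4 * ((1 + (x / r) ^ 2) ^ 2)⁻¹ := by
    rw [inv_eq_one_div, div_le_iff₀ (by positivity), ← div_eq_mul_inv, div_mul_eq_mul_div,
      le_div_iff₀ (by positivity), one_mul]
    calc (1 + (x / r) ^ 2) ^ 2 ≤ ((s / r) ^ 2 * (1 + (x / s) ^ 2)) ^ 2 := by gcongr
      _ = _ := by ring
  calc 2 / (π * s) * ((1 + (x / s) ^ 2) ^ 2)⁻¹
      ≤ 2 / (π * s) * ((s / r) ^ 4 * ((1 + (x / r) ^ 2) ^ 2)⁻¹) :=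
        mul_le_mul_of_nonneg_left h2 (by positivity)
    _ = _ := by field_simp

end basic

section integral

theorem integral_inv_one_add_sq_sq : ∫ x : ℝ, ((1 + x ^ 2) ^ 2)⁻¹ = π / 2 := by
  have hderiv : ∀ x : ℝ, HasDerivAt (fun x : ℝ => (x * (1 + x ^ 2)⁻¹ + arctan x) / 2)
      (((1 + x ^ 2) ^ 2)⁻¹) x := by
    intro x
    have h0 : (1 + x ^ 2) ≠ 0 := by positivity
    have h1 : HasDerivAt (fun x : ℝ => 1 + x ^ 2) (2 * x) x := by
      simpa using (hasDerivAt_pow 2 x).const_add 1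
    have h2 := (hasDerivAt_id x).mul (h1.inv h0)
    have h3 := (h2.add (hasDerivAt_arctan x)).div_const 2
    refine HasDerivAt.congr_deriv (f' := ((1 * (1 + x ^ 2)⁻¹ + x * (-(2 * x) / (1 + x ^ 2) ^ 2)
      + 1 / (1 + x ^ 2)) / 2)) h3 ?_
    field_simp
    ring
  have hint : Integrable (fun x : ℝ => ((1 + x ^ 2) ^ 2)⁻¹) := by
    refine integrable_inv_one_add_sq.mono' (by
      refine (Continuous.inv₀ (by fun_prop) fun x => ?_).aestronglyMeasurable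
      positivity) (ae_of_all _ fun x => ?_)
    rw [norm_of_nonneg (by positivity)]
    apply inv_anti₀ (by positivity)
    nlinarith [sq_nonneg x, sq_nonneg (x ^ 2)]
  have hlim : ∀ l : Filter ℝ, (l = atTop ∨ l = atBot) →
      Tendsto (fun x : ℝ => x * (1 + x ^ 2)⁻¹) l (𝓝 0) := by
    intro l hl
    have h1 : Tendsto (fun x : ℝ => x⁻¹) l (𝓝 0) := by
      rcases hl with rfl | rfl
      · exact tendsto_inv_atTop_zero
      · exact tendsto_inv_atBot_zero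
    refine squeeze_zero_norm' (a := fun x => ‖x⁻¹‖) ?_ (by simpa using h1.norm)
    refine Eventually.of_forall fun x => ?_
    rcases eq_or_ne x 0 with rfl | hx
    · simp
    rw [norm_mul, norm_inv, norm_inv, norm_of_nonneg (by positivity : (0 : ℝ) ≤ 1 + x ^ 2)]
    rw [← div_eq_mul_inv, div_le_iff₀ (by positivity), inv_mul_eq_div, le_div_iff₀ (by positivity),
      Real.norm_eq_abs, abs_mul_abs_self]
    nlinarith
  have hbot : Tendsto (fun x : ℝ => (x * (1 + x ^ 2)⁻¹ + arctan x) / 2) atBot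
      (𝓝 ((0 + -(π / 2)) / 2)) :=
    ((hlim atBot (Or.inr rfl)).add
      (tendsto_nhds_of_tendsto_nhdsWithin tendsto_arctan_atBot)).div_const 2
  have htop : Tendsto (fun x : ℝ => (x * (1 + x ^ 2)⁻¹ + arctan x) / 2) atTop
      (𝓝 ((0 + (π / 2)) / 2)) :=
    ((hlim atTop (Or.inl rfl)).add
      (tendsto_nhds_of_tendsto_nhdsWithin tendsto_arctan_atTop)).div_const 2
  rw [integral_of_hasDerivAt_of_tendsto hderiv hint hbot htop]
  ring

theorem integrable_inv_one_add_sq_sq : Integrable (fun x : ℝ => ((1 + x ^ 2) ^ 2)⁻¹) := by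
  refine integrable_inv_one_add_sq.mono' (by
    refine (Continuous.inv₀ (by fun_prop) fun x => ?_).aestronglyMeasurable
    positivity) (ae_of_all _ fun x => ?_)
  rw [norm_of_nonneg (by positivity)]
  apply inv_anti₀ (by positivity)
  nlinarith [sq_nonneg x, sq_nonneg (x ^ 2)]

theorem integrable_Wr {r : ℝ} (hr : 0 < r) : Integrable (Wr r) := by
  unfold Wr
  exact (integrable_inv_one_add_sq_sq.comp_div hr.ne').const_mul _

theorem integral_Wr {r : ℝ} (hr : 0 < r) : ∫ x, Wr r x = 1 := by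
  unfold Wr
  rw [integral_const_mul, Measure.integral_comp_div (fun x : ℝ => ((1 + x ^ 2) ^ 2)⁻¹) r,
    integral_inv_one_add_sq_sq, abs_of_pos hr, smul_eq_mul]
  field_simp

theorem integrable_Wr_sub {r : ℝ} (hr : 0 < r) (x : ℝ) : Integrable (fun y => Wr r (x - y)) :=
  (integrable_Wr hr).comp_sub_left x

theorem integral_Wr_sub {r : ℝ} (hr : 0 < r) (x : ℝ) : ∫ y, Wr r (x - y) = 1 := by
  rw [integral_sub_left_eq_self (Wr r) volume x, integral_Wr hr]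

end integral

section multiplier

theorem Wm_zero (r : ℝ) : Wm r 0 = 1 := by simp [Wm]

theorem Wm_neg (r a : ℝ) : Wm r (-a) = Wm r a := by simp [Wm]

theorem Wm_pos {r : ℝ} (hr : 0 < r) (a : ℝ) : 0 < Wm r a := by unfold Wm; positivity

theorem continuous_Wm (r : ℝ) : Continuous (Wm r) := by unfold Wm; fun_prop

/-- `(1+z)e^{-z}` is antitone for `z ≥ 0`. -/
theorem one_add_mul_exp_neg_anti {y z : ℝ} (hy : 0 ≤ y) (hyz : y ≤ z) :
    (1 + z) * exp (-z) ≤ (1 + y) * exp (-y) := by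
  have h1 : exp (-y) = exp (-z) * exp (z - y) := by rw [← exp_add]; ring_nf
  have h2 : 1 + (z - y) ≤ exp (z - y) := by linarith [add_one_le_exp (z - y)]
  rw [h1]
  have h3 : 1 + z ≤ (1 + y) * exp (z - y) := by nlinarith
  nlinarith [exp_pos (-z)]

theorem Wm_le_one {r : ℝ} (hr : 0 < r) (a : ℝ) : Wm r a ≤ 1 := by
  have h := one_add_mul_exp_neg_anti le_rfl (by positivity : 0 ≤ 2 * π * r * |a|)
  simpa [Wm] using h

theorem Wm_anti {r s : ℝ} (hr : 0 < r) (hrs : r ≤ s) (a : ℝ) : Wm s a ≤ Wm r a := by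
  unfold Wm
  exact one_add_mul_exp_neg_anti (by positivity) (by gcongr)

theorem one_sub_Wm_le {r : ℝ} (hr : 0 < r) (a : ℝ) : 1 - Wm r a ≤ 4 * π ^ 2 * r ^ 2 * a ^ 2 := by
  unfold Wm
  set z := 2 * π * r * |a| with hz
  have hz0 : 0 ≤ z := by positivity
  have e : z ^ 2 = 4 * π ^ 2 * r ^ 2 * a ^ 2 := by
    rw [hz, mul_pow, sq_abs]; ring
  rw [← e]
  have := Real.one_sub_le_exp_neg z
  nlinarith

end multiplier

end Vale.Agent.P076.H263
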