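/-
P076 / helper263: Fourier representation of the weight `W_r`.
-/
import Vale.Agent.P076.H263.Wr

namespace Vale.Agent.P076.H263

open MeasureTheory Set Filter Real
open scoped Topology

theorem exp_half_bound (t : ℝ) : 1 + t ≤ 2 * exp (t / 2) := by
  have := add_one_le_exp (t / 2); linarith

theorem integrable_exp_neg_mul_abs {c : ℝ} (hc : 0 < c) : Integrable fun a : ℝ => exp (-c * |a|) := by
  have h1 : IntegrableOn (fun a : ℝ => exp (-c * |a|)) (Iic 0) :=
    (integrableOn_exp_mul_Iic (a := c) hc 0).congr_fun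
      (fun a ha => by
        have : a ≤ 0 := ha
        simp only [abs_of_nonpos this]; ring_nf) measurableSet_Iic
  have h2 : IntegrableOn (fun a : ℝ => exp (-c * |a|)) (Ioi 0) :=
    (integrableOn_exp_mul_Ioi (a := -c) (by linarith) 0).congr_fun
      (fun a ha => by
        have : 0 < a := ha
        simp only [abs_of_pos this]) measurableSet_Ioi
  have := h1.union h2
  rwa [Iic_union_Ioi, integrableOn_univ] at this

theorem integrable_Wm {r : ℝ} (hr : 0 < r) : Integrable (Wm r) := by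
  have hdom : Integrable (fun a : ℝ => 2 * exp (-(π * r) * |a|)) :=
    (integrable_exp_neg_mul_abs (by positivity)).const_mul 2
  refine hdom.mono' (continuous_Wm r).aestronglyMeasurable (ae_of_all _ fun a => ?_)
  rw [norm_of_nonneg (Wm_pos hr a).le]
  unfold Wm
  have h1 := exp_half_bound (2 * π * r * |a|)
  have h2 : exp (-(2 * π * r * |a|)) = exp (-(π * r) * |a|) * exp (-(2 * π * r * |a| / 2)) := by
    rw [← exp_add]; ring_nf
  rw [h2]
  have h3 : exp (2 * π * r * |a| / 2) * exp (-(2 * π * r * |a| / 2)) = 1 := by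
    rw [← exp_add]; simp
  have hp1 := exp_pos (-(π * r) * |a|)
  have hp2 := exp_pos (-(2 * π * r * |a| / 2))
  calc (1 + 2 * π * r * |a|) * (exp (-(π * r) * |a|) * exp (-(2 * π * r * |a| / 2)))
      ≤ (2 * exp (2 * π * r * |a| / 2)) * (exp (-(π * r) * |a|) * exp (-(2 * π * r * |a| / 2))) := by
        gcongr
    _ = 2 * exp (-(π * r) * |a|) * (exp (2 * π * r * |a| / 2) * exp (-(2 * π * r * |a| / 2))) := by
        ring
    _ = _ := by rw [h3, mul_one]

open Complex in
/-- `∫₀^∞ (1 + c t) e^{-z t} dt = 1/z + c/z²`. -/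
theorem integral_one_add_mul_cexp {z : ℂ} (hz : 0 < z.re) (c : ℝ) :
    ∫ t in Ioi (0 : ℝ), (1 + (c : ℂ) * t) * cexp (-(z * t)) = 1 / z + c / z ^ 2 := by
  have hz0 : z ≠ 0 := fun h => by simp [h] at hz
  have hderiv : ∀ t ∈ Ici (0 : ℝ), HasDerivAt
      (fun t : ℝ => -(((1 + (c : ℂ) * t) / z + c / z ^ 2) * cexp (-(z * t))))
      ((1 + (c : ℂ) * t) * cexp (-(z * t))) t := by
    intro t _
    have h1 : HasDerivAt (fun t : ℝ => (t : ℂ)) 1 t := ofRealCLM.hasDerivAt
    have h2 : HasDerivAt (fun t : ℝ => (1 + (c : ℂ) * t) / z + c / z ^ 2) (c / z) t := by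
      have := (((h1.const_mul (c : ℂ)).const_add 1).div_const z).add_const (c / z ^ 2)
      simpa using this
    have h3 : HasDerivAt (fun t : ℝ => cexp (-(z * t))) (cexp (-(z * t)) * (-(z * 1))) t :=
      ((h1.const_mul z).neg).cexp
    refine (h2.mul h3).neg.congr_deriv ?_
    field_simp
    ring
  have hint : IntegrableOn (fun t : ℝ => (1 + (c : ℂ) * t) * cexp (-(z * t))) (Ioi 0) := by
    have hd : IntegrableOn (fun t : ℝ => (1 + 2 * |c| / z.re) * Real.exp (-(z.re / 2) * t)) (Ioi 0) :=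
      (integrableOn_exp_mul_Ioi (a := -(z.re / 2)) (by linarith) 0).const_mul _
    refine Integrable.mono' hd ?_ ?_
    · refine Continuous.aestronglyMeasurable ?_
      fun_prop
    · refine (ae_restrict_iff' measurableSet_Ioi).2 (ae_of_all _ fun t ht => ?_)
      have ht0 : 0 < t := ht
      rw [norm_mul, norm_exp]
      have e1 : (-(z * (t : ℂ))).re = -(z.re / 2) * t + -(z.re * t / 2) := by
        simp; ring
      rw [e1, Real.exp_add]
      have e2 : ‖(1 : ℂ) + c * t‖ ≤ 1 + |c| * t := by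
        refine (norm_add_le _ _).trans ?_
        simp [abs_of_pos ht0]
      have e3 : (1 + |c| * t) * Real.exp (-(z.re * t / 2)) ≤ 1 + 2 * |c| / z.re := by
        have h5 : 0 < Real.exp (-(z.re * t / 2)) := Real.exp_pos _
        have h6 : Real.exp (-(z.re * t / 2)) ≤ 1 := Real.exp_le_one_iff.2 (by
          have := mul_pos hz ht0; linarith)
        have h7 : z.re * t / 2 * Real.exp (-(z.re * t / 2)) ≤ 1 := by
          have h8 : z.re * t / 2 ≤ Real.exp (z.re * t / 2) := by
            linarith [Real.add_one_le_exp (z.re * t / 2)]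
          calc z.re * t / 2 * Real.exp (-(z.re * t / 2))
              ≤ Real.exp (z.re * t / 2) * Real.exp (-(z.re * t / 2)) := by gcongr
            _ = 1 := by rw [← Real.exp_add]; simp
        have h9 : |c| * t * Real.exp (-(z.re * t / 2)) ≤ 2 * |c| / z.re := by
          rw [le_div_iff₀ hz]
          have := mul_le_mul_of_nonneg_left h7 (by positivity : 0 ≤ 2 * |c|)
          nlinarith [abs_nonneg c]
        nlinarith
      calc ‖(1 : ℂ) + c * t‖ * (Real.exp (-(z.re / 2) * t) * Real.exp (-(z.re * t / 2)))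
          ≤ (1 + |c| * t) * (Real.exp (-(z.re / 2) * t) * Real.exp (-(z.re * t / 2))) := by gcongr
        _ = ((1 + |c| * t) * Real.exp (-(z.re * t / 2))) * Real.exp (-(z.re / 2) * t) := by ring
        _ ≤ (1 + 2 * |c| / z.re) * Real.exp (-(z.re / 2) * t) := by gcongr
  have hlim : Tendsto (fun t : ℝ => -(((1 + (c : ℂ) * t) / z + c / z ^ 2) * cexp (-(z * t))))
      atTop (𝓝 0) := by
    have h1 : Tendsto (fun t : ℝ => cexp (-(z * t))) atTop (𝓝 0) := by
      rw [tendsto_zero_iff_norm_tendsto_zero]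
      have : (fun t : ℝ => ‖cexp (-(z * t))‖) = fun t : ℝ => Real.exp (-(z.re * t)) := by
        ext t; rw [norm_exp]; simp
      rw [this]
      refine Real.tendsto_exp_atBot.comp ?_
      exact tendsto_neg_atTop_atBot.comp (tendsto_id.const_mul_atTop hz)
    have h2 : Tendsto (fun t : ℝ => (t : ℂ) * cexp (-(z * t))) atTop (𝓝 0) := by
      rw [tendsto_zero_iff_norm_tendsto_zero]
      have h3 := tendsto_rpow_mul_exp_neg_mul_atTop_nhds_zero 1 z.re hz
      refine (h3.congr' ?_)
      filter_upwards [eventually_gt_atTop 0] with t ht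
      rw [norm_mul, norm_exp, Real.rpow_one]
      simp [abs_of_pos ht]
    have h4 := ((h1.const_mul (1 / z + c / z ^ 2)).add (h2.const_mul ((c : ℂ) / z))).neg
    simp only [mul_zero, add_zero, neg_zero] at h4
    refine h4.congr fun t => ?_
    field_simp
    ring
  rw [integral_Ioi_of_hasDerivAt_of_tendsto' hderiv hint hlim]
  simp

open Complex in
/-- **Fourier representation of `W_r`**. -/
theorem Wr_eq_integral {r : ℝ} (hr : 0 < r) (x : ℝ) :
    ((Wr r x : ℝ) : ℂ) = ∫ a : ℝ, (Wm r a : ℂ) * cexp (((2 * π * a * x : ℝ) : ℂ) * I) := by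
  set c : ℝ := 2 * π * r with hc
  set y : ℝ := 2 * π * x with hy
  have hc0 : 0 < c := by positivity
  set z : ℂ := (c : ℂ) - y * I with hz
  set z' : ℂ := (c : ℂ) + y * I with hz'
  have hzre : 0 < z.re := by simp [hz, hc0]
  have hz're : 0 < z'.re := by simp [hz', hc0]
  have hint : Integrable (fun a : ℝ => (Wm r a : ℂ) * cexp (((2 * π * a * x : ℝ) : ℂ) * I)) := by
    refine (integrable_Wm hr).ofReal.mul_bdd (c := 1) (Continuous.aestronglyMeasurable (by fun_prop))
      (ae_of_all _ fun a => ?_)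
    rw [norm_exp_ofReal_mul_I]
  rw [← intervalIntegral.integral_Iic_add_Ioi (b := (0 : ℝ)) hint.integrableOn hint.integrableOn]
  have hpos : ∫ a in Ioi (0 : ℝ), (Wm r a : ℂ) * cexp (((2 * π * a * x : ℝ) : ℂ) * I)
      = 1 / z + c / z ^ 2 := by
    rw [← integral_one_add_mul_cexp hzre c]
    refine setIntegral_congr_fun measurableSet_Ioi fun a ha => ?_
    have ha0 : 0 < a := ha
    simp only [Wm, abs_of_pos ha0]
    push_cast
    rw [mul_assoc, ← Complex.exp_add]
    congr 2
    · rw [hc]; push_cast; ring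
    · rw [hz, hc, hy]; push_cast; ring
  have hneg : ∫ a in Iic (0 : ℝ), (Wm r a : ℂ) * cexp (((2 * π * a * x : ℝ) : ℂ) * I)
      = 1 / z' + c / z' ^ 2 := by
    have h0 := integral_comp_neg_Ioi (0 : ℝ)
      (fun a : ℝ => (Wm r a : ℂ) * cexp (((2 * π * a * x : ℝ) : ℂ) * I))
    rw [neg_zero] at h0
    rw [← h0, ← integral_one_add_mul_cexp hz're c]
    refine setIntegral_congr_fun measurableSet_Ioi fun a ha => ?_
    have ha0 : 0 < a := ha
    simp only [Wm, abs_neg, abs_of_pos ha0]
    push_cast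
    rw [mul_assoc, ← Complex.exp_add]
    congr 2
    · rw [hc]; push_cast; ring
    · rw [hz', hc, hy]; push_cast; ring
  rw [hpos, hneg]
  have hzz : z * z' = ((c ^ 2 + y ^ 2 : ℝ) : ℂ) := by
    rw [hz, hz']; push_cast
    linear_combination (-(y : ℂ) ^ 2) * I_sq
  have hz0 : z ≠ 0 := fun h => by simp [h] at hzre
  have hz'0 : z' ≠ 0 := fun h => by simp [h] at hz're
  have hsum : z + z' = 2 * c := by rw [hz, hz']; ring
  have hprod : 1 / z' + c / z' ^ 2 + (1 / z + c / z ^ 2)
      = ((z + z') * (z * z') + c * ((z + z') ^ 2 - 2 * (z * z'))) / (z * z') ^ 2 := by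
    field_simp
    ring
  rw [hprod, hsum, hzz]
  have hcy : (c ^ 2 + y ^ 2) ≠ 0 := by positivity
  have hreal : Wr r x = ((2 * c) * (c ^ 2 + y ^ 2) + c * ((2 * c) ^ 2 - 2 * (c ^ 2 + y ^ 2)))
      / (c ^ 2 + y ^ 2) ^ 2 := by
    unfold Wr
    rw [hc, hy]
    have h2 : 0 < r ^ 2 + x ^ 2 := by positivity
    have h3 : (2 * π * r) ^ 2 + (2 * π * x) ^ 2 = (2 * π) ^ 2 * (r ^ 2 + x ^ 2) := by ring
    rw [h3]
    field_simp
    ring
  rw [hreal]
  push_cast
  ring

end Vale.Agent.P076.H263
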