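/-
P076 / helper263: facts on the multipliers `Wh`, `kh` (X11 = `StKh`).
-/
import Vale.Agent.P076.X.Spec
import Vale.Agent.P076.H263.WrF

namespace Vale.Agent.P076.H263

open MeasureTheory Set Filter Real Vale.Agent.P076.X
open scoped Topology FourierTransform

theorem W_eq (r x : ℝ) : W r x = Wr r x := by
  unfold W Wr; rw [div_pow]

/-- The Fourier transform of `Wm r` is `Wr r`. -/
theorem fourier_Wm {r : ℝ} (hr : 0 < r) :
    𝓕 (fun a : ℝ => (Wm r a : ℂ)) = fun x : ℝ => (Wr r x : ℂ) := by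
  ext x
  rw [← Wr_neg r x, Wr_eq_integral hr (-x), Real.fourier_real_eq_integral_exp_smul]
  refine integral_congr_ae (ae_of_all _ fun a => ?_)
  simp only [smul_eq_mul]
  rw [mul_comm]
  congr 3
  push_cast
  ring

theorem Wm_eq_integral {r : ℝ} (hr : 0 < r) (a : ℝ) :
    (Wm r a : ℂ) = ∫ x : ℝ, (Wr r x : ℂ) * Complex.exp (((2 * π * x * a : ℝ) : ℂ) * Complex.I) := by
  have hc : Continuous (fun a : ℝ => (Wm r a : ℂ)) :=
    Complex.continuous_ofReal.comp (continuous_Wm r)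
  have hi : Integrable (fun a : ℝ => (Wm r a : ℂ)) := (integrable_Wm hr).ofReal
  have hF := fourier_Wm hr
  have hFi : Integrable (𝓕 (fun a : ℝ => (Wm r a : ℂ))) := by
    rw [hF]; exact (integrable_Wr hr).ofReal
  have h := congrFun (hc.fourierInv_fourier_eq hi hFi) a
  rw [hF, Real.fourierInv_eq_fourier_neg, Real.fourier_real_eq_integral_exp_smul] at h
  rw [← h]
  refine integral_congr_ae (ae_of_all _ fun x => ?_)
  simp only [smul_eq_mul]
  rw [mul_comm]
  congr 3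
  push_cast
  ring

theorem Wh_eq {r : ℝ} (hr : 0 < r) (a : ℝ) : Wh r a = Wm r a := by
  have h := congrArg Complex.re (Wm_eq_integral hr a)
  rw [Complex.ofReal_re] at h
  rw [h]
  have hint : Integrable (fun x : ℝ => (Wr r x : ℂ) *
      Complex.exp (((2 * π * x * a : ℝ) : ℂ) * Complex.I)) := by
    refine (integrable_Wr hr).ofReal.mul_bdd (c := 1)
      (Continuous.aestronglyMeasurable (by fun_prop)) (ae_of_all _ fun x => ?_)
    rw [Complex.norm_exp_ofReal_mul_I]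
  have h2 := integral_re (𝕜 := ℂ) hint
  simp only [RCLike.re_to_complex] at h2
  rw [← h2]
  unfold Wh
  refine integral_congr_ae (ae_of_all _ fun x => ?_)
  simp only [W_eq]
  rw [Complex.re_ofReal_mul, Complex.exp_ofReal_mul_I_re]
  ring_nf

theorem kh_eq {B s : ℝ} (hB : 0 < B) (hs : 0 < s) (a : ℝ) :
    kh B s a = Wm (B * s) a * exp (-(π * s ^ 2 * a ^ 2 / 2)) := by
  unfold kh; rw [Wh_eq (mul_pos hB hs)]

theorem kh_nonneg {B s : ℝ} (hB : 0 < B) (hs : 0 < s) (a : ℝ) : 0 ≤ kh B s a := by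
  rw [kh_eq hB hs]; exact mul_nonneg (Wm_pos (mul_pos hB hs) a).le (exp_pos _).le

theorem kh_le_exp {B s : ℝ} (hB : 0 < B) (hs : 0 < s) (a : ℝ) :
    kh B s a ≤ exp (-(π * s ^ 2 * a ^ 2 / 2)) := by
  rw [kh_eq hB hs]
  exact mul_le_of_le_one_left (exp_pos _).le (Wm_le_one (mul_pos hB hs) a)

theorem kh_le_Wm {B s : ℝ} (hB : 0 < B) (hs : 0 < s) (a : ℝ) :
    kh B s a ≤ Wm (B * s) a := by
  rw [kh_eq hB hs]
  exact mul_le_of_le_one_right (Wm_pos (mul_pos hB hs) a).le (exp_le_one_iff.2 (by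
    have : 0 ≤ π * s ^ 2 * a ^ 2 / 2 := by positivity
    linarith))

theorem kh_le_one {B s : ℝ} (hB : 0 < B) (hs : 0 < s) (a : ℝ) : kh B s a ≤ 1 :=
  (kh_le_Wm hB hs a).trans (Wm_le_one (mul_pos hB hs) a)

theorem kh_anti {B s s' : ℝ} (hB : 0 < B) (hs : 0 < s) (hss : s ≤ s') (a : ℝ) :
    kh B s' a ≤ kh B s a := by
  have hs' : 0 < s' := hs.trans_le hss
  rw [kh_eq hB hs, kh_eq hB hs']
  refine mul_le_mul (Wm_anti (mul_pos hB hs) (by gcongr) a) ?_ (exp_pos _).le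
    (Wm_pos (mul_pos hB hs) a).le
  apply exp_le_exp.2
  have : s ^ 2 ≤ s' ^ 2 := by gcongr
  have h2 : 0 ≤ a ^ 2 := sq_nonneg a
  have hpi := pi_pos
  nlinarith [mul_le_mul_of_nonneg_right this h2]

theorem continuous_kh {B s : ℝ} (hB : 0 < B) (hs : 0 < s) : Continuous (kh B s) := by
  have : kh B s = fun a => Wm (B * s) a * exp (-(π * s ^ 2 * a ^ 2 / 2)) :=
    funext fun a => kh_eq hB hs a
  rw [this]
  exact (continuous_Wm _).mul (by fun_prop)

theorem integrable_kh {B s : ℝ} (hB : 0 < B) (hs : 0 < s) : Integrable (kh B s) := by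
  refine (integrable_Wm (mul_pos hB hs)).mono' (continuous_kh hB hs).aestronglyMeasurable
    (ae_of_all _ fun a => ?_)
  rw [norm_of_nonneg (kh_nonneg hB hs a)]
  exact kh_le_Wm hB hs a

theorem kh_sub_le {B : ℝ} (hB : 0 < B) {s : ℝ} (hs : 0 < s) (a : ℝ) :
    kh B s a - kh B (2 * s) a ≤ ((16 * π ^ 2 * B ^ 2 + 2 * π + 1) * exp (π / 2)) *
      min 1 (s ^ 2 * a ^ 2) * exp (-(π * s ^ 2 * a ^ 2 / 2)) := by
  have h2s : 0 < 2 * s := by positivity
  have hk2 := kh_nonneg hB h2s a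
  have hE : 1 ≤ exp (π / 2) := one_le_exp (by positivity)
  have hC1 : 1 ≤ 16 * π ^ 2 * B ^ 2 + 2 * π + 1 := by
    have : 0 ≤ 16 * π ^ 2 * B ^ 2 := by positivity
    linarith [pi_pos]
  rcases le_total (s ^ 2 * a ^ 2) 1 with h1 | h1
  · rw [min_eq_right h1]
    have hq : 0 ≤ s ^ 2 * a ^ 2 := by positivity
    -- the difference is at most `1 - kh(2s)`
    have hd : kh B s a - kh B (2 * s) a ≤ (16 * π ^ 2 * B ^ 2 + 2 * π) * (s ^ 2 * a ^ 2) := by
      have e1 := kh_le_one hB hs a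
      have e2 : kh B (2 * s) a = Wm (B * (2 * s)) a * exp (-(π * (2 * s) ^ 2 * a ^ 2 / 2)) :=
        kh_eq hB h2s a
      have e3 := one_sub_Wm_le (mul_pos hB h2s) a
      have e4 := Real.one_sub_le_exp_neg (π * (2 * s) ^ 2 * a ^ 2 / 2)
      have e5 := Wm_le_one (mul_pos hB h2s) a
      have e6 := (Wm_pos (mul_pos hB h2s) a).le
      have e7 : exp (-(π * (2 * s) ^ 2 * a ^ 2 / 2)) ≤ 1 := exp_le_one_iff.2 (by
        have : 0 ≤ π * (2 * s) ^ 2 * a ^ 2 / 2 := by positivity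
        linarith)
      have e8 := exp_pos (-(π * (2 * s) ^ 2 * a ^ 2 / 2))
      have e9 : 1 - kh B (2 * s) a ≤ (1 - Wm (B * (2 * s)) a)
          + (1 - exp (-(π * (2 * s) ^ 2 * a ^ 2 / 2))) := by
        rw [e2]
        nlinarith [mul_nonneg (sub_nonneg.2 e5) (sub_nonneg.2 e7)]
      nlinarith
    have he : exp (-(π / 2)) ≤ exp (-(π * s ^ 2 * a ^ 2 / 2)) := by
      apply exp_le_exp.2
      nlinarith [pi_pos]
    have hee : exp (π / 2) * exp (-(π * s ^ 2 * a ^ 2 / 2)) ≥ 1 := by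
      calc exp (π / 2) * exp (-(π * s ^ 2 * a ^ 2 / 2)) ≥ exp (π / 2) * exp (-(π / 2)) := by gcongr
        _ = 1 := by rw [← exp_add]; simp
    have hnn : 0 ≤ (16 * π ^ 2 * B ^ 2 + 2 * π + 1) * (s ^ 2 * a ^ 2) :=
      mul_nonneg (by linarith) hq
    calc kh B s a - kh B (2 * s) a ≤ (16 * π ^ 2 * B ^ 2 + 2 * π) * (s ^ 2 * a ^ 2) := hd
      _ ≤ (16 * π ^ 2 * B ^ 2 + 2 * π + 1) * (s ^ 2 * a ^ 2) := by nlinarith
      _ = (16 * π ^ 2 * B ^ 2 + 2 * π + 1) * (s ^ 2 * a ^ 2) * 1 := (mul_one _).symm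
      _ ≤ (16 * π ^ 2 * B ^ 2 + 2 * π + 1) * (s ^ 2 * a ^ 2) *
            (exp (π / 2) * exp (-(π * s ^ 2 * a ^ 2 / 2))) := mul_le_mul_of_nonneg_left hee hnn
      _ = _ := by ring
  · rw [min_eq_left h1]
    have e1 := kh_le_exp hB hs a
    have hCC : 1 ≤ (16 * π ^ 2 * B ^ 2 + 2 * π + 1) * exp (π / 2) := by
      nlinarith
    have he := exp_pos (-(π * s ^ 2 * a ^ 2 / 2))
    nlinarith

/-! ### The kernel of `kh` -/

/-- the Gaussian `ρ_s` -/
noncomputable def Gs (s y : ℝ) : ℝ := √2 / s * exp (-(2 * π * y ^ 2 / s ^ 2))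

theorem Gs_nonneg {s : ℝ} (hs : 0 < s) (y : ℝ) : 0 ≤ Gs s y := by unfold Gs; positivity

theorem continuous_Gs (s : ℝ) : Continuous (Gs s) := by unfold Gs; fun_prop

theorem integrable_Gs {s : ℝ} (hs : 0 < s) : Integrable (Gs s) := by
  unfold Gs
  refine Integrable.const_mul ?_ _
  have := integrable_exp_neg_mul_sq (b := 2 * π / s ^ 2) (by positivity)
  refine this.congr (ae_of_all _ fun y => ?_)
  simp only
  congr 1
  ring

theorem integral_Gs {s : ℝ} (hs : 0 < s) : ∫ y, Gs s y = 1 := by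
  unfold Gs
  rw [integral_const_mul]
  have h := integral_gaussian (2 * π / s ^ 2)
  have h2 : (fun y : ℝ => exp (-(2 * π * y ^ 2 / s ^ 2))) = fun y : ℝ =>
      exp (-(2 * π / s ^ 2) * y ^ 2) := by
    ext y; congr 1; ring
  rw [h2, h]
  have h3 : π / (2 * π / s ^ 2) = s ^ 2 / 2 := by field_simp
  rw [h3, Real.sqrt_div (by positivity), Real.sqrt_sq hs.le]
  have h4 : √2 ≠ 0 := by positivity
  field_simp

open Complex in
/-- Fourier transform of `ρ_s`. -/
theorem fourier_Gs {s : ℝ} (hs : 0 < s) (a : ℝ) :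
    ∫ y : ℝ, (Gs s y : ℂ) * cexp (((-(2 * π * a * y) : ℝ) : ℂ) * I)
      = (Real.exp (-(π * s ^ 2 * a ^ 2 / 2)) : ℂ) := by
  have hb : 0 < (((2 * π / s ^ 2 : ℝ)) : ℂ).re := by
    rw [ofReal_re]; positivity
  have h := fourierIntegral_gaussian hb (-(2 * π * a : ℝ) : ℂ)
  have h1 : (fun y : ℝ => (Gs s y : ℂ) * cexp (((-(2 * π * a * y) : ℝ) : ℂ) * I))
      = fun y : ℝ => ((√2 / s : ℝ) : ℂ) *
        (cexp (I * (-(2 * π * a : ℝ) : ℂ) * y) * cexp (-(((2 * π / s ^ 2 : ℝ)) : ℂ) * y ^ 2)) := by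
    ext y
    unfold Gs
    push_cast
    rw [mul_assoc, ← Complex.exp_add, ← Complex.exp_add]
    congr 2
    ring
  rw [h1, integral_const_mul, h]
  have h2 : ((π : ℂ) / ((2 * π / s ^ 2 : ℝ) : ℂ)) = ((s ^ 2 / 2 : ℝ) : ℂ) := by
    push_cast
    have : (π : ℂ) ≠ 0 := by exact_mod_cast pi_ne_zero
    have hs' : (s : ℂ) ≠ 0 := by exact_mod_cast hs.ne'
    field_simp
  have h3 : ((s ^ 2 / 2 : ℝ) : ℂ) ^ (1 / 2 : ℂ) = ((s / √2 : ℝ) : ℂ) := by
    have : (1 / 2 : ℂ) = ((1 / 2 : ℝ) : ℂ) := by push_cast; ring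
    rw [this, ← Complex.ofReal_cpow (by positivity), ← Real.sqrt_eq_rpow,
      Real.sqrt_div (by positivity), Real.sqrt_sq hs.le]
  rw [h2, h3]
  have h4 : (-(-(2 * π * a : ℝ) : ℂ) ^ 2 / (4 * ((2 * π / s ^ 2 : ℝ) : ℂ)))
      = ((-(π * s ^ 2 * a ^ 2 / 2) : ℝ) : ℂ) := by
    push_cast
    have : (π : ℂ) ≠ 0 := by exact_mod_cast pi_ne_zero
    have hs' : (s : ℂ) ≠ 0 := by exact_mod_cast hs.ne'
    field_simp
    ring
  rw [h4, ← mul_assoc, ← Complex.ofReal_mul]
  have h5 : √2 / s * (s / √2) = 1 := by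
    have h4 : √2 ≠ 0 := by positivity
    field_simp
  rw [h5]
  push_cast
  ring

/-- the kernel `h = W_{Bs} * ρ_s` of `kh` -/
noncomputable def hk (B s x : ℝ) : ℝ := ∫ y, Gs s y * Wr (B * s) (x - y)

theorem hk_nonneg {B s : ℝ} (hB : 0 < B) (hs : 0 < s) (x : ℝ) : 0 ≤ hk B s x :=
  integral_nonneg fun y => mul_nonneg (Gs_nonneg hs y) (Wr_nonneg (mul_pos hB hs) _)

theorem integrable_hk_inner {B s : ℝ} (hB : 0 < B) (hs : 0 < s) (x : ℝ) :
    Integrable (fun y => Gs s y * Wr (B * s) (x - y)) := by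
  refine (integrable_Gs hs).mul_bdd (c := 2 / (π * (B * s)))
    (((continuous_Wr _).comp (continuous_const.sub continuous_id)).aestronglyMeasurable)
    (ae_of_all _ fun y => ?_)
  rw [norm_of_nonneg (Wr_nonneg (mul_pos hB hs) _)]
  exact Wr_le (mul_pos hB hs) _

theorem integrable_hk_prod {B s : ℝ} (hB : 0 < B) (hs : 0 < s) :
    Integrable (fun p : ℝ × ℝ => Gs s p.2 * Wr (B * s) (p.1 - p.2)) (volume.prod volume) := by
  have h := ((integrable_Gs hs).mul_prod (integrable_Wr (mul_pos hB hs)))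
  -- change variables `(y, z) ↦ (z + y, y)`
  have hmp : MeasurePreserving (fun p : ℝ × ℝ => (p.2, p.1 - p.2))
      (volume.prod volume) (volume.prod volume) := by
    have h1 : MeasurePreserving (fun p : ℝ × ℝ => (p.2, p.1)) (volume.prod volume)
        (volume.prod volume) := Measure.measurePreserving_swap
    have h2 : MeasurePreserving (fun p : ℝ × ℝ => (p.1, p.2 - p.1)) (volume.prod volume)
        (volume.prod volume) := by
      have := measurePreserving_prod_sub (volume : Measure ℝ) (volume : Measure ℝ)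
      exact this
    exact h2.comp h1
  exact hmp.integrable_comp_of_integrable h

theorem integral_hk {B s : ℝ} (hB : 0 < B) (hs : 0 < s) : ∫ x, hk B s x = 1 := by
  unfold hk
  rw [integral_integral_swap (f := fun x y => Gs s y * Wr (B * s) (x - y))
    (integrable_hk_prod hB hs)]
  have : ∀ y : ℝ, ∫ x, Gs s y * Wr (B * s) (x - y) = Gs s y := by
    intro y
    rw [integral_const_mul, integral_sub_right_eq_self (Wr (B * s)) y,
      integral_Wr (mul_pos hB hs), mul_one]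
  simp_rw [this]
  exact integral_Gs hs

theorem integrable_hk {B s : ℝ} (hB : 0 < B) (hs : 0 < s) : Integrable (hk B s) :=
  (integrable_hk_prod hB hs).integral_prod_left

theorem hk_neg (B s x : ℝ) : hk B s (-x) = hk B s x := by
  unfold hk
  rw [← integral_neg_eq_self]
  refine integral_congr_ae (ae_of_all _ fun y => ?_)
  simp only [Gs, neg_sq]
  rw [← Wr_neg]
  ring_nf

open Complex in
/-- `h(x) = ∫ k(a) e(ax) da`. -/
theorem hk_eq {B s : ℝ} (hB : 0 < B) (hs : 0 < s) (x : ℝ) :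
    (hk B s x : ℂ) = ∫ a, (kh B s a : ℂ) * ex (x * a) := by
  have hBs := mul_pos hB hs
  unfold hk
  rw [← integral_complex_ofReal]
  have h1 : ∀ y : ℝ, ((Gs s y * Wr (B * s) (x - y) : ℝ) : ℂ)
      = ∫ a, (Gs s y : ℂ) * ((Wm (B * s) a : ℂ) * cexp (((2 * π * a * (x - y) : ℝ) : ℂ) * I)) := by
    intro y
    rw [integral_const_mul, ← Wr_eq_integral hBs]
    push_cast
    rfl
  simp_rw [h1]
  rw [integral_integral_swap]
  · refine integral_congr_ae (ae_of_all _ fun a => ?_)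
    simp only
    have h2 : ∀ y : ℝ, (Gs s y : ℂ) * ((Wm (B * s) a : ℂ) *
        cexp (((2 * π * a * (x - y) : ℝ) : ℂ) * I))
        = ((Wm (B * s) a : ℂ) * ex (x * a)) *
          ((Gs s y : ℂ) * cexp (((-(2 * π * a * y) : ℝ) : ℂ) * I)) := by
      intro y
      have : cexp (((2 * π * a * (x - y) : ℝ) : ℂ) * I)
          = ex (x * a) * cexp (((-(2 * π * a * y) : ℝ) : ℂ) * I) := by
        unfold ex
        rw [← Complex.exp_add]
        congr 1
        push_cast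
        ring
      rw [this]; ring
    simp_rw [h2]
    rw [integral_const_mul, fourier_Gs hs a, kh_eq hB hs]
    push_cast
    ring
  · -- integrability on the product
    have hG : Integrable (fun y => (Gs s y : ℂ)) := (integrable_Gs hs).ofReal
    have hW : Integrable (fun a => (Wm (B * s) a : ℂ)) := (integrable_Wm hBs).ofReal
    have h := hG.mul_prod hW
    refine (h.mul_bdd (c := 1) (g := fun p : ℝ × ℝ =>
      cexp (((2 * π * p.2 * (x - p.1) : ℝ) : ℂ) * I))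
      (Continuous.aestronglyMeasurable (by fun_prop)) (ae_of_all _ fun p => ?_)).congr
      (ae_of_all _ fun p => ?_)
    · rw [norm_exp_ofReal_mul_I]
    · simp only [Function.uncurry]
      ring

end Vale.Agent.P076.H263
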