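/-
P076 / helper263: `StKh` (X11) and `StMax` (X12), the maximal inequality at a fixed time.
-/
import Vale.Agent.P076.H263.Kh

namespace Vale.Agent.P076.H263

open MeasureTheory Set Filter Real Vale.Agent.P076.X
open scoped Topology ComplexConjugate

theorem norm_ex (x : ℝ) : ‖ex x‖ = 1 := by
  unfold ex; rw [Complex.norm_exp_ofReal_mul_I]

theorem continuous_ex : Continuous ex := by unfold ex; fun_prop

theorem ex_add (x y : ℝ) : ex (x + y) = ex x * ex y := by
  unfold ex; rw [← Complex.exp_add]; congr 1; push_cast; ring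

theorem conj_ex (x : ℝ) : conj (ex x) = ex (-x) := by
  unfold ex
  rw [← Complex.exp_conj, map_mul, Complex.conj_ofReal, Complex.conj_I]
  congr 1
  push_cast
  ring

/-- the Fourier transform of the indicator function of `A` -/
noncomputable def FA (A : Set ℝ) (a : ℝ) : ℂ := ∫ x in A, ex (-(x * a))

theorem norm_FA_le (A : Set ℝ) (a : ℝ) : ‖FA A a‖ ≤ (volume A).toReal := by
  unfold FA
  refine (norm_integral_le_integral_norm _).trans ?_
  simp [norm_ex, Measure.real]

theorem integrableOn_ex {A : Set ℝ} (hA : volume A < ⊤) (f : ℝ → ℝ) (hf : Continuous f) :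
    IntegrableOn (fun x => ex (f x)) A := by
  refine Measure.integrableOn_of_bounded (M := 1) hA.ne
    ((continuous_ex.comp hf).aestronglyMeasurable) (ae_of_all _ fun x => ?_)
  rw [norm_ex]

theorem continuous_FA {A : Set ℝ} (hA : volume A < ⊤) : Continuous (FA A) := by
  unfold FA
  refine continuous_of_dominated (bound := fun _ => 1) (fun a => ?_) (fun a => ?_) ?_ ?_
  · exact (continuous_ex.comp (by fun_prop)).aestronglyMeasurable
  · exact ae_of_all _ fun x => by rw [norm_ex]
  · exact integrableOn_const hA.ne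
  · exact ae_of_all _ fun x => continuous_ex.comp (by fun_prop)

/-- Fubini: integrating `∫ f(a) e(xa) da` over `A`. -/
theorem swapA {A : Set ℝ} (hA : volume A < ⊤) {f : ℝ → ℂ} (hf : Integrable f) :
    ∫ x in A, ∫ a, f a * ex (x * a) = ∫ a, f a * conj (FA A a) := by
  rw [integral_integral_swap]
  · refine integral_congr_ae (ae_of_all _ fun a => ?_)
    simp only
    rw [integral_const_mul, FA, ← integral_conj]
    congr 1
    refine integral_congr_ae (ae_of_all _ fun x => ?_)
    simp only [conj_ex, neg_neg]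
  · have h1 : Integrable (fun _ : ℝ => (1 : ℂ)) (volume.restrict A) := integrableOn_const hA.ne
    refine ((h1.mul_prod hf).mul_bdd (c := 1) (g := fun p : ℝ × ℝ => ex (p.1 * p.2))
      (continuous_ex.comp (by fun_prop)).aestronglyMeasurable (ae_of_all _ fun p => ?_)).congr
      (ae_of_all _ fun p => ?_)
    · rw [norm_ex]
    · simp [Function.uncurry]

theorem swapA' {A : Set ℝ} (hA : volume A < ⊤) {f : ℝ → ℂ} (hf : Integrable f) :
    ∫ x in A, ∫ a, f a * ex (-(x * a)) = ∫ a, f a * FA A a := by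
  rw [integral_integral_swap]
  · refine integral_congr_ae (ae_of_all _ fun a => ?_)
    simp only
    rw [integral_const_mul, FA]
  · have h1 : Integrable (fun _ : ℝ => (1 : ℂ)) (volume.restrict A) := integrableOn_const hA.ne
    refine ((h1.mul_prod hf).mul_bdd (c := 1) (g := fun p : ℝ × ℝ => ex (-(p.1 * p.2)))
      (continuous_ex.comp (by fun_prop)).aestronglyMeasurable (ae_of_all _ fun p => ?_)).congr
      (ae_of_all _ fun p => ?_)
    · rw [norm_ex]
    · simp [Function.uncurry]

/-- the bilinear form of the kernel `hk` on sets -/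
noncomputable def QA (B s : ℝ) (A A' : Set ℝ) : ℝ := ∫ x in A, ∫ y in A', hk B s (x - y)

theorem integrable_hk_sub {B s : ℝ} (hB : 0 < B) (hs : 0 < s) (x : ℝ) :
    Integrable (fun y => hk B s (x - y)) := (integrable_hk hB hs).comp_sub_left x

theorem QA_inner_nonneg {B s : ℝ} (hB : 0 < B) (hs : 0 < s) (A' : Set ℝ) (x : ℝ) :
    0 ≤ ∫ y in A', hk B s (x - y) := integral_nonneg fun _ => hk_nonneg hB hs _

theorem QA_inner_le {B s : ℝ} (hB : 0 < B) (hs : 0 < s) (A' : Set ℝ) (x : ℝ) :
    ∫ y in A', hk B s (x - y) ≤ 1 := by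
  calc ∫ y in A', hk B s (x - y) ≤ ∫ y, hk B s (x - y) :=
        setIntegral_le_integral (integrable_hk_sub hB hs x) (ae_of_all _ fun _ => hk_nonneg hB hs _)
    _ = 1 := by rw [integral_sub_left_eq_self (hk B s) volume x, integral_hk hB hs]

theorem QA_nonneg {B s : ℝ} (hB : 0 < B) (hs : 0 < s) (A A' : Set ℝ) : 0 ≤ QA B s A A' :=
  integral_nonneg fun x => QA_inner_nonneg hB hs A' x

theorem QA_le {B s : ℝ} (hB : 0 < B) (hs : 0 < s) {A A' : Set ℝ} (hA : volume A < ⊤) :
    QA B s A A' ≤ (volume A).toReal := by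
  unfold QA
  calc ∫ x in A, ∫ y in A', hk B s (x - y) ≤ ∫ _x in A, (1 : ℝ) := by
        refine integral_mono_of_nonneg (ae_of_all _ fun x => QA_inner_nonneg hB hs A' x)
          (integrableOn_const hA.ne) (ae_of_all _ fun x => QA_inner_le hB hs A' x)
    _ = (volume A).toReal := by simp [Measure.real]

theorem integrable_kh_mul {B s : ℝ} (hB : 0 < B) (hs : 0 < s) {f : ℝ → ℂ} (hf : Continuous f)
    {C : ℝ} (hC : ∀ a, ‖f a‖ ≤ C) : Integrable (fun a => (kh B s a : ℂ) * f a) :=
  (integrable_kh hB hs).ofReal.mul_bdd (c := C) hf.aestronglyMeasurable (ae_of_all _ hC)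

/-- The Fourier side form of `QA`. -/
theorem QA_eq {B s : ℝ} (hB : 0 < B) (hs : 0 < s) {A A' : Set ℝ} (hA : volume A < ⊤)
    (hA' : volume A' < ⊤) :
    (QA B s A A' : ℂ) = ∫ a, (kh B s a : ℂ) * (FA A' a * conj (FA A a)) := by
  have h1 : ∫ a, (kh B s a : ℂ) * (FA A' a * conj (FA A a))
      = ∫ x in A, ∫ a, ((kh B s a : ℂ) * FA A' a) * ex (x * a) := by
    rw [swapA hA (integrable_kh_mul hB hs (continuous_FA hA') (norm_FA_le A'))]
    refine integral_congr_ae (ae_of_all _ fun a => ?_)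
    simp only; ring
  rw [h1, QA, ← integral_complex_ofReal]
  refine integral_congr_ae (ae_of_all _ fun x => ?_)
  simp only
  rw [← integral_complex_ofReal]
  have h2 : ∫ a, ((kh B s a : ℂ) * FA A' a) * ex (x * a)
      = ∫ y in A', ∫ a, ((kh B s a : ℂ) * ex (x * a)) * ex (-(y * a)) := by
    rw [swapA' hA' (f := fun a => (kh B s a : ℂ) * ex (x * a))
      (integrable_kh_mul hB hs (f := fun a => ex (x * a)) (continuous_ex.comp (by fun_prop))
      (fun a => (norm_ex _).le))]
    refine integral_congr_ae (ae_of_all _ fun a => ?_)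
    simp only; ring
  rw [h2]
  refine integral_congr_ae (ae_of_all _ fun y => ?_)
  simp only
  rw [hk_eq hB hs]
  refine integral_congr_ae (ae_of_all _ fun a => ?_)
  simp only
  rw [mul_assoc, ← ex_add]
  congr 2
  ring

theorem QA_eq_re {B s : ℝ} (hB : 0 < B) (hs : 0 < s) {A A' : Set ℝ} (hA : volume A < ⊤)
    (hA' : volume A' < ⊤) :
    QA B s A A' = ∫ a, kh B s a * (FA A' a * conj (FA A a)).re := by
  have h := congrArg Complex.re (QA_eq hB hs hA hA')
  rw [Complex.ofReal_re] at h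
  rw [h]
  have hint : Integrable (fun a => (kh B s a : ℂ) * (FA A' a * conj (FA A a))) := by
    refine integrable_kh_mul hB hs ((continuous_FA hA').mul
      (Complex.continuous_conj.comp (continuous_FA hA)))
      (C := (volume A').toReal * (volume A).toReal) (fun a => ?_)
    rw [norm_mul, RCLike.norm_conj]
    exact mul_le_mul (norm_FA_le _ _) (norm_FA_le _ _) (norm_nonneg _) ENNReal.toReal_nonneg
  have h2 := integral_re (𝕜 := ℂ) hint
  simp only [RCLike.re_to_complex] at h2
  rw [← h2]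
  refine integral_congr_ae (ae_of_all _ fun a => ?_)
  simp only
  rw [Complex.re_ofReal_mul]

theorem integrable_kh_re {B s : ℝ} (hB : 0 < B) (hs : 0 < s) {A A' : Set ℝ} (hA : volume A < ⊤)
    (hA' : volume A' < ⊤) :
    Integrable (fun a => kh B s a * (FA A' a * conj (FA A a)).re) := by
  refine (integrable_kh hB hs).mul_bdd (c := (volume A').toReal * (volume A).toReal) ?_
    (ae_of_all _ fun a => ?_)
  · exact (Complex.continuous_re.comp ((continuous_FA hA').mul
      (Complex.continuous_conj.comp (continuous_FA hA)))).aestronglyMeasurable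
  · refine (Complex.abs_re_le_norm _).trans ?_
    rw [norm_mul, RCLike.norm_conj]
    exact mul_le_mul (norm_FA_le _ _) (norm_FA_le _ _) (norm_nonneg _) ENNReal.toReal_nonneg

theorem mul_conj_self_re (z : ℂ) : (z * conj z).re = ‖z‖ ^ 2 := by
  rw [Complex.mul_conj, Complex.ofReal_re, Complex.normSq_eq_norm_sq]

theorem QA_self {B s : ℝ} (hB : 0 < B) (hs : 0 < s) {A : Set ℝ} (hA : volume A < ⊤) :
    ∫ a, kh B s a * ‖FA A a‖ ^ 2 = QA B s A A := by
  rw [QA_eq_re hB hs hA hA]
  simp_rw [mul_conj_self_re]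

theorem integrable_kh_sq {B s : ℝ} (hB : 0 < B) (hs : 0 < s) {A : Set ℝ} (hA : volume A < ⊤) :
    Integrable (fun a => kh B s a * ‖FA A a‖ ^ 2) := by
  have := integrable_kh_re hB hs hA hA
  simpa only [mul_conj_self_re] using this

theorem FA_diff {A A' : Set ℝ} (hAm : MeasurableSet A) (hAA : A ⊆ A') (hA' : volume A' < ⊤)
    (a : ℝ) : FA (A' \ A) a = FA A' a - FA A a := by
  unfold FA
  rw [setIntegral_sdiff hAm (integrableOn_ex hA' _ (by fun_prop)) hAA]

/-- The Abel summation step. -/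
theorem QA_step {B s : ℝ} (hB : 0 < B) (hs : 0 < s) {A A' : Set ℝ} (hAm : MeasurableSet A)
    (hAA : A ⊆ A') (hA' : volume A' < ⊤) :
    (∫ a, kh B s a * ‖FA A' a‖ ^ 2) - (∫ a, kh B s a * ‖FA A a‖ ^ 2)
      ≤ 2 * (volume (A' \ A)).toReal := by
  have hA : volume A < ⊤ := (measure_mono hAA).trans_lt hA'
  have hD : volume (A' \ A) < ⊤ := (measure_mono sdiff_subset).trans_lt hA'
  have h1 : (∫ a, kh B s a * ‖FA A' a‖ ^ 2) - (∫ a, kh B s a * ‖FA A a‖ ^ 2)
      = QA B s (A' \ A) A' + QA B s (A' \ A) A := by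
    rw [QA_eq_re hB hs hD hA', QA_eq_re hB hs hD hA,
      ← integral_sub (integrable_kh_sq hB hs hA') (integrable_kh_sq hB hs hA),
      ← integral_add (integrable_kh_re hB hs hD hA') (integrable_kh_re hB hs hD hA)]
    refine integral_congr_ae (ae_of_all _ fun a => ?_)
    simp only [FA_diff hAm hAA hA']
    rw [← mul_sub, ← mul_add]
    congr 1
    set u := FA A' a
    set v := FA A a
    simp only [map_sub, mul_sub, Complex.sub_re, ← mul_conj_self_re, Complex.mul_re,
      Complex.conj_re, Complex.conj_im]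
    ring
  rw [h1]
  have e1 := QA_le hB hs (A' := A') hD
  have e2 := QA_le hB hs (A' := A) hD
  linarith

theorem stKh : StKh := by
  intro B hB1
  have hB : 0 < B := by linarith
  refine ⟨fun s a hs => ⟨kh_nonneg hB hs a, kh_le_one hB hs a⟩,
    fun s s' a hs hss => kh_anti hB hs hss a,
    ⟨(16 * π ^ 2 * B ^ 2 + 2 * π + 1) * exp (π / 2), by positivity,
      fun s a hs => kh_sub_le hB hs a⟩, ?_⟩
  intro s hs A A' hA hA' hAA hv
  have hvA : volume A < ⊤ := (measure_mono hAA).trans_lt hv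
  refine ⟨QA_step hB hs hA hAA hv, ?_, ?_⟩
  · have := QA_nonneg hB hs A A
    rw [← QA_self hB hs hvA] at this
    exact this
  · have := QA_le hB hs (A' := A) hvA
    rw [← QA_self hB hs hvA] at this
    exact this

/-- Abel summation: total of the quadratic forms of the increasing sets. -/
theorem sum_QA_le {B : ℝ} (hB : 0 < B) (N : ℕ) {s : ℕ → ℝ} (hs : ∀ i, 0 < s i)
    {A : ℕ → Set ℝ} (hAm : ∀ i, MeasurableSet (A i))
    (hAA : ∀ i, A i ⊆ A (i + 1)) (hv : volume (A N) < ⊤) :
    ∑ i ∈ Finset.range (N + 1),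
        ((∫ a, kh B (s i) a * ‖FA (A i) a‖ ^ 2) - ∫ a, kh B (s (i + 1)) a * ‖FA (A i) a‖ ^ 2)
      ≤ 2 * (volume (A N)).toReal - ∫ a, kh B (s (N + 1)) a * ‖FA (A N) a‖ ^ 2 := by
  induction N with
  | zero =>
    rw [Finset.sum_range_one]
    have h1 := QA_le hB (hs 0) (A' := A 0) hv
    rw [← QA_self hB (hs 0) hv] at h1
    have h0 : 0 ≤ (volume (A 0)).toReal := ENNReal.toReal_nonneg
    simp only [zero_add] at *
    linarith
  | succ N ih =>
    have hvN : volume (A N) < ⊤ := (measure_mono (hAA N)).trans_lt hv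
    rw [Finset.sum_range_succ]
    have h1 := ih hvN
    have h2 := QA_step hB (hs (N + 1)) (hAm N) (hAA N) hv
    have h3 : (volume (A (N + 1) \ A N)).toReal
        = (volume (A (N + 1))).toReal - (volume (A N)).toReal := by
      rw [measure_sdiff (hAA N) (hAm N).nullMeasurableSet hvN.ne,
        ENNReal.toReal_sub_of_le (measure_mono (hAA N)) hv.ne]
    linarith

theorem stMax : StMax := by
  intro B hB1 N s hs hss A hAm hAA hv U hU hUi hUi' lam hlam
  have hB : 0 < B := by linarith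
  have hmono : ∀ i ≤ N, A i ⊆ A N := by
    intro i hi
    exact monotone_nat_of_le_succ hAA hi
  have hvi : ∀ i ≤ N, volume (A i) < ⊤ := fun i hi => (measure_mono (hmono i hi)).trans_lt hv
  have hD : ∀ i a, 0 ≤ kh B (s i) a - kh B (s (i + 1)) a := fun i a =>
    sub_nonneg.2 (kh_anti hB (hs i) (hss i) a)
  -- each term
  have hterm : ∀ i ∈ Finset.range (N + 1),
      (∫ x in A i, (∫ a, ((kh B (s i) a - kh B (s (i + 1)) a : ℝ) : ℂ) * U i a * ex (x * a)).re)
      ≤ lam / 8 * ((∫ a, kh B (s i) a * ‖FA (A i) a‖ ^ 2)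
          - ∫ a, kh B (s (i + 1)) a * ‖FA (A i) a‖ ^ 2)
        + 2 / lam * ∫ a, (kh B (s i) a - kh B (s (i + 1)) a) * ‖U i a‖ ^ 2 := by
    intro i hi
    have hiN : i ≤ N := by have := Finset.mem_range.1 hi; omega
    have hvA := hvi i hiN
    have hf := hUi' i
    -- Fubini
    have hinn : Integrable (fun x => ∫ a, ((kh B (s i) a - kh B (s (i + 1)) a : ℝ) : ℂ) * U i a
        * ex (x * a)) (volume.restrict (A i)) := by
      have h1 : Integrable (fun _ : ℝ => (1 : ℂ)) (volume.restrict (A i)) :=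
        integrableOn_const hvA.ne
      have h2 : Integrable (fun p : ℝ × ℝ =>
          (((kh B (s i) p.2 - kh B (s (i + 1)) p.2 : ℝ) : ℂ) * U i p.2) * ex (p.1 * p.2))
          ((volume.restrict (A i)).prod volume) := by
        refine ((h1.mul_prod hf).mul_bdd (c := 1) (g := fun p : ℝ × ℝ => ex (p.1 * p.2))
          (continuous_ex.comp (by fun_prop)).aestronglyMeasurable (ae_of_all _ fun p => ?_)).congr
          (ae_of_all _ fun p => ?_)
        · rw [norm_ex]
        · simp
      exact h2.integral_prod_left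
    have hre := integral_re (𝕜 := ℂ) hinn
    simp only [RCLike.re_to_complex] at hre
    rw [hre, swapA hvA hf]
    have hgi : Integrable (fun a => ((kh B (s i) a - kh B (s (i + 1)) a : ℝ) : ℂ) * U i a
        * conj (FA (A i) a)) := by
      refine hf.mul_bdd (c := (volume (A i)).toReal)
        (Complex.continuous_conj.comp (continuous_FA hvA)).aestronglyMeasurable
        (ae_of_all _ fun a => ?_)
      rw [RCLike.norm_conj]
      exact norm_FA_le _ _
    have hre2 := integral_re (𝕜 := ℂ) hgi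
    simp only [RCLike.re_to_complex] at hre2
    rw [← hre2]
    have hI1 := integrable_kh_sq hB (hs i) hvA
    have hI2 := integrable_kh_sq hB (hs (i + 1)) hvA
    have hI12 : Integrable (fun a => kh B (s i) a * ‖FA (A i) a‖ ^ 2
        - kh B (s (i + 1)) a * ‖FA (A i) a‖ ^ 2) := hI1.sub hI2
    have hrhs : lam / 8 * ((∫ a, kh B (s i) a * ‖FA (A i) a‖ ^ 2)
          - ∫ a, kh B (s (i + 1)) a * ‖FA (A i) a‖ ^ 2)
        + 2 / lam * ∫ a, (kh B (s i) a - kh B (s (i + 1)) a) * ‖U i a‖ ^ 2
        = ∫ a, (lam / 8 * (kh B (s i) a * ‖FA (A i) a‖ ^ 2 - kh B (s (i + 1)) a * ‖FA (A i) a‖ ^ 2)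
            + 2 / lam * ((kh B (s i) a - kh B (s (i + 1)) a) * ‖U i a‖ ^ 2)) := by
      rw [integral_add (hI12.const_mul _) ((hUi i).const_mul _), integral_const_mul,
        integral_const_mul, integral_sub hI1 hI2]
    rw [hrhs]
    refine integral_mono hgi.re ((hI12.const_mul _).add ((hUi i).const_mul _)) fun a => ?_
    simp only
    have hd := hD i a
    set D := kh B (s i) a - kh B (s (i + 1)) a with hDdef
    set u := U i a
    set v := FA (A i) a
    have h1 : ((D : ℂ) * u * conj v).re ≤ D * (‖u‖ * ‖v‖) := by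
      rw [mul_assoc, Complex.re_ofReal_mul]
      refine mul_le_mul_of_nonneg_left ?_ hd
      refine (Complex.re_le_norm _).trans ?_
      rw [norm_mul, RCLike.norm_conj]
    have h2 : ‖u‖ * ‖v‖ ≤ lam / 8 * ‖v‖ ^ 2 + 2 / lam * ‖u‖ ^ 2 := by
      have h3 : 0 ≤ (lam / 4 * ‖v‖ - ‖u‖) ^ 2 * (2 / lam) := by positivity
      have h4 : (lam / 4 * ‖v‖ - ‖u‖) ^ 2 * (2 / lam)
          = lam / 8 * ‖v‖ ^ 2 - ‖u‖ * ‖v‖ + 2 / lam * ‖u‖ ^ 2 := by
        field_simp
        ring
      linarith
    calc ((D : ℂ) * u * conj v).re ≤ D * (‖u‖ * ‖v‖) := h1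
      _ ≤ D * (lam / 8 * ‖v‖ ^ 2 + 2 / lam * ‖u‖ ^ 2) := mul_le_mul_of_nonneg_left h2 hd
      _ = _ := by rw [hDdef]; ring
  have hsum := Finset.sum_le_sum hterm
  rw [Finset.sum_add_distrib, ← Finset.mul_sum, ← Finset.mul_sum] at hsum
  have habel := sum_QA_le hB N hs hAm hAA hv
  have hlast : 0 ≤ ∫ a, kh B (s (N + 1)) a * ‖FA (A N) a‖ ^ 2 :=
    integral_nonneg fun a => mul_nonneg (kh_nonneg hB (hs _) a) (sq_nonneg _)
  have h8 : lam / 8 * ∑ i ∈ Finset.range (N + 1),
        ((∫ a, kh B (s i) a * ‖FA (A i) a‖ ^ 2) - ∫ a, kh B (s (i + 1)) a * ‖FA (A i) a‖ ^ 2)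
      ≤ lam / 8 * (2 * (volume (A N)).toReal) :=
    mul_le_mul_of_nonneg_left (by linarith) (by positivity)
  calc _ ≤ _ := hsum
    _ ≤ lam / 8 * (2 * (volume (A N)).toReal) + 2 / lam *
      ∑ i ∈ Finset.range (N + 1), ∫ a, (kh B (s i) a - kh B (s (i + 1)) a) * ‖U i a‖ ^ 2 := by
        linarith
    _ = _ := by ring

end Vale.Agent.P076.H263
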