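/-
P076 / helper263: `StPoi` (X11') and `StMaxP` (X12'), Poisson form of the maximal inequality.
-/
import Vale.Agent.P076.X.SpecP
import Vale.Agent.P076.H263.Max

namespace Vale.Agent.P076.H263

open MeasureTheory Set Filter Real Vale.Agent.P076.X
open scoped Topology ComplexConjugate

/-! ### Generic quadratic forms of indicators -/

/-- `k` is the Fourier transform of the probability density `h`. -/
structure KH (k h : ℝ → ℝ) : Prop where
  ki : Integrable k
  hi : Integrable h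
  h0 : ∀ x, 0 ≤ h x
  h1 : ∫ x, h x = 1
  eq : ∀ x, (h x : ℂ) = ∫ a, (k a : ℂ) * ex (x * a)

variable {k h : ℝ → ℝ}

/-- the bilinear form of the kernel `h` on sets -/
noncomputable def QG (h : ℝ → ℝ) (A A' : Set ℝ) : ℝ := ∫ x in A, ∫ y in A', h (x - y)

theorem QG_inner_nonneg (H : KH k h) (A' : Set ℝ) (x : ℝ) :
    0 ≤ ∫ y in A', h (x - y) := integral_nonneg fun _ => H.h0 _

theorem QG_inner_le (H : KH k h) (A' : Set ℝ) (x : ℝ) :
    ∫ y in A', h (x - y) ≤ 1 := by
  calc ∫ y in A', h (x - y) ≤ ∫ y, h (x - y) :=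
        setIntegral_le_integral (H.hi.comp_sub_left x) (ae_of_all _ fun _ => H.h0 _)
    _ = 1 := by rw [integral_sub_left_eq_self h volume x, H.h1]

theorem QG_nonneg (H : KH k h) (A A' : Set ℝ) : 0 ≤ QG h A A' :=
  integral_nonneg fun x => QG_inner_nonneg H A' x

theorem QG_le (H : KH k h) {A A' : Set ℝ} (hA : volume A < ⊤) :
    QG h A A' ≤ (volume A).toReal := by
  unfold QG
  calc ∫ x in A, ∫ y in A', h (x - y) ≤ ∫ _x in A, (1 : ℝ) := by
        refine integral_mono_of_nonneg (ae_of_all _ fun x => QG_inner_nonneg H A' x)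
          (integrableOn_const hA.ne) (ae_of_all _ fun x => QG_inner_le H A' x)
    _ = (volume A).toReal := by simp [Measure.real]

theorem KH.integrable_mul (H : KH k h) {f : ℝ → ℂ} (hf : Continuous f)
    {C : ℝ} (hC : ∀ a, ‖f a‖ ≤ C) : Integrable (fun a => (k a : ℂ) * f a) :=
  H.ki.ofReal.mul_bdd (c := C) hf.aestronglyMeasurable (ae_of_all _ hC)

theorem QG_eq (H : KH k h) {A A' : Set ℝ} (hA : volume A < ⊤) (hA' : volume A' < ⊤) :
    (QG h A A' : ℂ) = ∫ a, (k a : ℂ) * (FA A' a * conj (FA A a)) := by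
  have h1 : ∫ a, (k a : ℂ) * (FA A' a * conj (FA A a))
      = ∫ x in A, ∫ a, ((k a : ℂ) * FA A' a) * ex (x * a) := by
    rw [swapA hA (H.integrable_mul (continuous_FA hA') (norm_FA_le A'))]
    refine integral_congr_ae (ae_of_all _ fun a => ?_)
    simp only; ring
  rw [h1, QG, ← integral_complex_ofReal]
  refine integral_congr_ae (ae_of_all _ fun x => ?_)
  simp only
  rw [← integral_complex_ofReal]
  have h2 : ∫ a, ((k a : ℂ) * FA A' a) * ex (x * a)
      = ∫ y in A', ∫ a, ((k a : ℂ) * ex (x * a)) * ex (-(y * a)) := by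
    rw [swapA' hA' (f := fun a => (k a : ℂ) * ex (x * a))
      (H.integrable_mul (f := fun a => ex (x * a)) (continuous_ex.comp (by fun_prop))
      (fun a => (norm_ex _).le))]
    refine integral_congr_ae (ae_of_all _ fun a => ?_)
    simp only; ring
  rw [h2]
  refine integral_congr_ae (ae_of_all _ fun y => ?_)
  simp only
  rw [H.eq]
  refine integral_congr_ae (ae_of_all _ fun a => ?_)
  simp only
  rw [mul_assoc, ← ex_add]
  congr 2
  ring

theorem QG_int_aux (H : KH k h) {A A' : Set ℝ} (hA : volume A < ⊤) (hA' : volume A' < ⊤) :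
    Integrable (fun a => (k a : ℂ) * (FA A' a * conj (FA A a))) := by
  refine H.integrable_mul ((continuous_FA hA').mul
    (Complex.continuous_conj.comp (continuous_FA hA)))
    (C := (volume A').toReal * (volume A).toReal) (fun a => ?_)
  rw [norm_mul, RCLike.norm_conj]
  exact mul_le_mul (norm_FA_le _ _) (norm_FA_le _ _) (norm_nonneg _) ENNReal.toReal_nonneg

theorem QG_eq_re (H : KH k h) {A A' : Set ℝ} (hA : volume A < ⊤) (hA' : volume A' < ⊤) :
    QG h A A' = ∫ a, k a * (FA A' a * conj (FA A a)).re := by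
  have h' := congrArg Complex.re (QG_eq H hA hA')
  rw [Complex.ofReal_re] at h'
  rw [h']
  have h2 := integral_re (𝕜 := ℂ) (QG_int_aux H hA hA')
  simp only [RCLike.re_to_complex] at h2
  rw [← h2]
  refine integral_congr_ae (ae_of_all _ fun a => ?_)
  simp only
  rw [Complex.re_ofReal_mul]

theorem KH.integrable_re (H : KH k h) {A A' : Set ℝ} (hA : volume A < ⊤) (hA' : volume A' < ⊤) :
    Integrable (fun a => k a * (FA A' a * conj (FA A a)).re) := by
  have := (QG_int_aux H hA hA').re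
  refine this.congr (ae_of_all _ fun a => ?_)
  simp only [RCLike.re_to_complex]
  rw [Complex.re_ofReal_mul]

theorem QG_self (H : KH k h) {A : Set ℝ} (hA : volume A < ⊤) :
    ∫ a, k a * ‖FA A a‖ ^ 2 = QG h A A := by
  rw [QG_eq_re H hA hA]
  simp_rw [mul_conj_self_re]

theorem KH.integrable_sq (H : KH k h) {A : Set ℝ} (hA : volume A < ⊤) :
    Integrable (fun a => k a * ‖FA A a‖ ^ 2) := by
  have := H.integrable_re hA hA
  simpa only [mul_conj_self_re] using this

theorem QG_step (H : KH k h) {A A' : Set ℝ} (hAm : MeasurableSet A)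
    (hAA : A ⊆ A') (hA' : volume A' < ⊤) :
    (∫ a, k a * ‖FA A' a‖ ^ 2) - (∫ a, k a * ‖FA A a‖ ^ 2) ≤ 2 * (volume (A' \ A)).toReal := by
  have hA : volume A < ⊤ := (measure_mono hAA).trans_lt hA'
  have hD : volume (A' \ A) < ⊤ := (measure_mono sdiff_subset).trans_lt hA'
  have h1 : (∫ a, k a * ‖FA A' a‖ ^ 2) - (∫ a, k a * ‖FA A a‖ ^ 2)
      = QG h (A' \ A) A' + QG h (A' \ A) A := by
    rw [QG_eq_re H hD hA', QG_eq_re H hD hA,
      ← integral_sub (H.integrable_sq hA') (H.integrable_sq hA),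
      ← integral_add (H.integrable_re hD hA') (H.integrable_re hD hA)]
    refine integral_congr_ae (ae_of_all _ fun a => ?_)
    simp only [FA_diff hAm hAA hA']
    rw [← mul_sub, ← mul_add]
    congr 1
    set u := FA A' a
    set v := FA A a
    simp only [map_sub, mul_sub, Complex.sub_re, ← mul_conj_self_re, Complex.mul_re,
      Complex.conj_re, Complex.conj_im]
    ring
  rw [h1]
  have e1 := QG_le H (A' := A') hD
  have e2 := QG_le H (A' := A) hD
  linarith

/-- Abel summation for a decreasing family of multipliers. -/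
theorem sum_QG_le (N : ℕ) {k h : ℕ → ℝ → ℝ} (H : ∀ i, KH (k i) (h i))
    {A : ℕ → Set ℝ} (hAm : ∀ i, MeasurableSet (A i))
    (hAA : ∀ i, A i ⊆ A (i + 1)) (hv : volume (A N) < ⊤) :
    ∑ i ∈ Finset.range (N + 1),
        ((∫ a, k i a * ‖FA (A i) a‖ ^ 2) - ∫ a, k (i + 1) a * ‖FA (A i) a‖ ^ 2)
      ≤ 2 * (volume (A N)).toReal - ∫ a, k (N + 1) a * ‖FA (A N) a‖ ^ 2 := by
  induction N with
  | zero =>
    rw [Finset.sum_range_one]
    have h1 := QG_le (H 0) (A' := A 0) hv
    rw [← QG_self (H 0) hv] at h1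
    have h0 : 0 ≤ (volume (A 0)).toReal := ENNReal.toReal_nonneg
    simp only [zero_add] at *
    linarith
  | succ N ih =>
    have hvN : volume (A N) < ⊤ := (measure_mono (hAA N)).trans_lt hv
    rw [Finset.sum_range_succ]
    have h1 := ih hvN
    have h2 := QG_step (H (N + 1)) (hAm N) (hAA N) hv
    have h3 : (volume (A (N + 1) \ A N)).toReal
        = (volume (A (N + 1))).toReal - (volume (A N)).toReal := by
      rw [measure_sdiff (hAA N) (hAm N).nullMeasurableSet hvN.ne,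
        ENNReal.toReal_sub_of_le (measure_mono (hAA N)) hv.ne]
    linarith

/-! ### The Poisson kernel -/

/-- the Poisson kernel, `∫ e^{-r|a|} e(az) da` -/
noncomputable def Pk (r z : ℝ) : ℝ := 2 / r * (1 + (z / (r / (2 * π))) ^ 2)⁻¹

theorem integrable_Pk {r : ℝ} (hr : 0 < r) : Integrable (Pk r) := by
  unfold Pk
  have hd : r / (2 * π) ≠ 0 := by positivity
  exact (integrable_inv_one_add_sq.comp_div hd).const_mul _

theorem integral_Pk {r : ℝ} (hr : 0 < r) : ∫ z, Pk r z = 1 := by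
  unfold Pk
  have hd : 0 < r / (2 * π) := by positivity
  rw [integral_const_mul, Measure.integral_comp_div (fun x : ℝ => (1 + x ^ 2)⁻¹) (r / (2 * π)),
    integral_univ_inv_one_add_sq, abs_of_pos hd, smul_eq_mul]
  field_simp

open Complex in
theorem Pk_eq {r : ℝ} (hr : 0 < r) (x : ℝ) :
    ((Pk r x : ℝ) : ℂ) = ∫ a : ℝ, (Real.exp (-(r * |a|)) : ℂ) * ex (x * a) := by
  set y : ℝ := 2 * π * x with hy
  set z : ℂ := (r : ℂ) - y * I with hz
  set z' : ℂ := (r : ℂ) + y * I with hz'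
  have hzre : 0 < z.re := by simp [hz, hr]
  have hz're : 0 < z'.re := by simp [hz', hr]
  have hki : Integrable (fun a : ℝ => Real.exp (-(r * |a|))) := by
    have := integrable_exp_neg_mul_abs hr
    refine this.congr (ae_of_all _ fun a => ?_)
    simp only; ring_nf
  have hint : Integrable (fun a : ℝ => (Real.exp (-(r * |a|)) : ℂ) * ex (x * a)) := by
    refine hki.ofReal.mul_bdd (c := 1) ((continuous_ex.comp (by fun_prop)).aestronglyMeasurable)
      (ae_of_all _ fun a => ?_)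
    rw [norm_ex]
  rw [← intervalIntegral.integral_Iic_add_Ioi (b := (0 : ℝ)) hint.integrableOn hint.integrableOn]
  have hpos : ∫ a in Ioi (0 : ℝ), (Real.exp (-(r * |a|)) : ℂ) * ex (x * a) = 1 / z := by
    have h0 := integral_one_add_mul_cexp hzre 0
    simp only [ofReal_zero, zero_mul, add_zero, one_mul, zero_div] at h0
    rw [← h0]
    refine setIntegral_congr_fun measurableSet_Ioi fun a ha => ?_
    have ha0 : 0 < a := ha
    simp only [abs_of_pos ha0, ex]
    rw [ofReal_exp, ← Complex.exp_add]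
    congr 1
    rw [hz, hy]; push_cast; ring
  have hneg : ∫ a in Iic (0 : ℝ), (Real.exp (-(r * |a|)) : ℂ) * ex (x * a) = 1 / z' := by
    have h1 := integral_comp_neg_Ioi (0 : ℝ)
      (fun a : ℝ => (Real.exp (-(r * |a|)) : ℂ) * ex (x * a))
    rw [neg_zero] at h1
    have h0 := integral_one_add_mul_cexp hz're 0
    simp only [ofReal_zero, zero_mul, add_zero, one_mul, zero_div] at h0
    rw [← h1, ← h0]
    refine setIntegral_congr_fun measurableSet_Ioi fun a ha => ?_
    have ha0 : 0 < a := ha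
    simp only [abs_neg, abs_of_pos ha0, ex]
    rw [ofReal_exp, ← Complex.exp_add]
    congr 1
    rw [hz', hy]; push_cast; ring
  rw [hpos, hneg]
  have hzz : z * z' = ((r ^ 2 + y ^ 2 : ℝ) : ℂ) := by
    rw [hz, hz']; push_cast
    linear_combination (-(y : ℂ) ^ 2) * I_sq
  have hz0 : z ≠ 0 := fun h => by simp [h] at hzre
  have hz'0 : z' ≠ 0 := fun h => by simp [h] at hz're
  have hsum : z + z' = 2 * r := by rw [hz, hz']; ring
  have hprod : 1 / z' + 1 / z = (z + z') / (z * z') := by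
    field_simp
  rw [hprod, hsum, hzz]
  have hcy : (r ^ 2 + y ^ 2) ≠ 0 := by positivity
  have hreal : Pk r x = (2 * r) / (r ^ 2 + y ^ 2) := by
    unfold Pk
    rw [hy]
    have h2 : 0 < r ^ 2 + (2 * π * x) ^ 2 := by positivity
    field_simp
  rw [hreal]
  push_cast
  ring

theorem kh_poisson {r : ℝ} (hr : 0 < r) : KH (fun a => exp (-(r * |a|))) (Pk r) where
  ki := by
    have := integrable_exp_neg_mul_abs hr
    refine this.congr (ae_of_all _ fun a => ?_)
    simp only; ring_nf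
  hi := integrable_Pk hr
  h0 := fun x => by unfold Pk; positivity
  h1 := integral_Pk hr
  eq := fun x => Pk_eq hr x

/-! ### The elementary inequalities -/

theorem one_sub_exp_neg_ge {x : ℝ} (hx : 0 ≤ x) : x / (1 + x) ≤ 1 - exp (-x) := by
  have h1 := add_one_le_exp x
  have h2 : exp (-x) ≤ 1 / (1 + x) := by
    rw [exp_neg, ← one_div]
    exact one_div_le_one_div_of_le (by linarith) (by linarith)
  have h3 : x / (1 + x) = 1 - 1 / (1 + x) := by
    have : (1 + x) ≠ 0 := by linarith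
    field_simp
    ring
  linarith

theorem min_one_pow_three {q : ℝ} (hq : 0 ≤ q) : min 1 (q ^ 3) = min 1 (q ^ 2) * min 1 q := by
  rcases le_total q 1 with h | h
  · rw [min_eq_right (pow_le_one₀ hq h), min_eq_right (pow_le_one₀ hq h), min_eq_right h]; ring
  · rw [min_eq_left (one_le_pow₀ h), min_eq_left (one_le_pow₀ h), min_eq_left h]; ring

theorem mu_le {s : ℝ} (hs : 0 < s) (a : ℝ) :
    mu s a ≤ 3 / 2 * ((exp (-(π * s ^ 2 * a ^ 2 / 4)) - exp (-(π * s ^ 2 * a ^ 2)))
      * min 1 (s * |a|)) := by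
  unfold mu
  set q := s * |a| with hq
  have hq0 : 0 ≤ q := by positivity
  have hsq : s ^ 2 * a ^ 2 = q ^ 2 := by rw [hq, mul_pow, sq_abs]
  have e1 : π * s ^ 2 * a ^ 2 / 2 = π * q ^ 2 / 2 := by rw [mul_assoc π, hsq]
  have e2 : π * s ^ 2 * a ^ 2 / 4 = π * q ^ 2 / 4 := by rw [mul_assoc π, hsq]
  have e3 : π * s ^ 2 * a ^ 2 = π * q ^ 2 := by rw [mul_assoc π, hsq]
  rw [e1, e2, e3, min_one_pow_three hq0]
  have hm : 0 ≤ min 1 q := le_min zero_le_one hq0
  have hm2 : 0 ≤ min 1 (q ^ 2) := le_min zero_le_one (by positivity)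
  have h4 : exp (-(π * q ^ 2 / 4)) - exp (-(π * q ^ 2))
      = exp (-(π * q ^ 2 / 4)) * (1 - exp (-(3 * π * q ^ 2 / 4))) := by
    rw [mul_sub, mul_one, ← exp_add]; ring_nf
  have h5 : exp (-(π * q ^ 2 / 2)) ≤ exp (-(π * q ^ 2 / 4)) := by
    apply exp_le_exp.2
    have : 0 ≤ π * q ^ 2 := by positivity
    linarith
  have h6 : 2 / 3 * min 1 (q ^ 2) ≤ 1 - exp (-(3 * π * q ^ 2 / 4)) := by
    have hx : 0 ≤ 3 * π * q ^ 2 / 4 := by positivity
    refine le_trans ?_ (one_sub_exp_neg_ge hx)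
    have hx2 : 2 * q ^ 2 ≤ 3 * π * q ^ 2 / 4 := by nlinarith [pi_gt_three, sq_nonneg q]
    have hmono : 2 * q ^ 2 / (1 + 2 * q ^ 2) ≤ 3 * π * q ^ 2 / 4 / (1 + 3 * π * q ^ 2 / 4) := by
      rw [div_le_div_iff₀ (by positivity) (by positivity)]
      nlinarith
    refine le_trans ?_ hmono
    rw [le_div_iff₀ (by positivity)]
    rcases le_total (q ^ 2) 1 with h | h
    · rw [min_eq_right h]; nlinarith [sq_nonneg q]
    · rw [min_eq_left h]; nlinarith
  rw [h4]
  calc min 1 (q ^ 2) * min 1 q * exp (-(π * q ^ 2 / 2))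
      ≤ min 1 (q ^ 2) * min 1 q * exp (-(π * q ^ 2 / 4)) := by gcongr
    _ = 3 / 2 * (exp (-(π * q ^ 2 / 4)) * (2 / 3 * min 1 (q ^ 2)) * min 1 q) := by ring
    _ ≤ 3 / 2 * (exp (-(π * q ^ 2 / 4)) * (1 - exp (-(3 * π * q ^ 2 / 4))) * min 1 q) := by
        gcongr

theorem kh_sub_nonneg {B s : ℝ} (hB : 0 < B) (hs : 0 < s) (a : ℝ) :
    0 ≤ kh B s a - kh B (2 * s) a := sub_nonneg.2 (kh_anti hB hs (by linarith) a)

theorem kh_sub_sq_le {B : ℝ} (hB : 0 < B) {s : ℝ} (hs : 0 < s) (a : ℝ) :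
    (kh B s a - kh B (2 * s) a) ^ 2 ≤
      (2 * exp 1 * ((16 * π ^ 2 * B ^ 2 + 2 * π + 1) * exp (π / 2)) ^ 2) * mu s a *
        (exp (-(s * |a|)) - exp (-(2 * s * |a|))) := by
  set C₀ := (16 * π ^ 2 * B ^ 2 + 2 * π + 1) * exp (π / 2) with hC₀
  have hC0 : 0 < C₀ := by positivity
  have h1 := kh_sub_le hB hs a
  have h0 := kh_sub_nonneg hB hs a
  unfold mu
  set q := s * |a| with hq
  have hq0 : 0 ≤ q := by positivity
  have hsq : s ^ 2 * a ^ 2 = q ^ 2 := by rw [hq, mul_pow, sq_abs]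
  have e1 : π * s ^ 2 * a ^ 2 / 2 = π * q ^ 2 / 2 := by rw [mul_assoc π, hsq]
  have e5 : 2 * s * |a| = 2 * q := by rw [hq]; ring
  rw [← hC₀, hsq, e1] at h1
  rw [e1, e5]
  have hm3 : 0 ≤ min 1 (q ^ 3) := le_min zero_le_one (by positivity)
  have h2 : (kh B s a - kh B (2 * s) a) ^ 2
      ≤ (C₀ * min 1 (q ^ 2) * exp (-(π * q ^ 2 / 2))) ^ 2 := by gcongr
  refine h2.trans ?_
  have h3 : (min 1 (q ^ 2)) ^ 2 = min 1 (q ^ 3) * min 1 q := by
    rcases le_total q 1 with h | h
    · rw [min_eq_right (pow_le_one₀ hq0 h), min_eq_right (pow_le_one₀ hq0 h), min_eq_right h]; ring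
    · rw [min_eq_left (one_le_pow₀ h), min_eq_left (one_le_pow₀ h), min_eq_left h]; ring
  have h4 : min 1 q ≤ 2 * (1 - exp (-q)) := by
    have := one_sub_exp_neg_ge hq0
    have h5 : min 1 q / 2 ≤ q / (1 + q) := by
      rw [div_le_div_iff₀ (by norm_num) (by linarith)]
      rcases le_total q 1 with h | h
      · rw [min_eq_right h]; nlinarith
      · rw [min_eq_left h]; nlinarith
    linarith
  have h6 : exp (-(π * q ^ 2 / 2)) ≤ exp 1 * exp (-q) := by
    rw [← exp_add]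
    apply exp_le_exp.2
    nlinarith [pi_gt_three, sq_nonneg (q - 1), sq_nonneg q]
  have h7 : exp (-q) - exp (-(2 * q)) = exp (-q) * (1 - exp (-q)) := by
    rw [mul_sub, mul_one, ← exp_add]; ring_nf
  have h8 : 0 ≤ 1 - exp (-q) := by
    have : exp (-q) ≤ 1 := exp_le_one_iff.2 (by linarith)
    linarith
  rw [h7]
  calc (C₀ * min 1 (q ^ 2) * exp (-(π * q ^ 2 / 2))) ^ 2
      = C₀ ^ 2 * (min 1 (q ^ 2)) ^ 2 * exp (-(π * q ^ 2 / 2)) * exp (-(π * q ^ 2 / 2)) := by ring
    _ = C₀ ^ 2 * (min 1 (q ^ 3) * min 1 q) * exp (-(π * q ^ 2 / 2)) * exp (-(π * q ^ 2 / 2)) := by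
        rw [h3]
    _ ≤ C₀ ^ 2 * (min 1 (q ^ 3) * (2 * (1 - exp (-q)))) * exp (-(π * q ^ 2 / 2)) *
          (exp 1 * exp (-q)) := by gcongr
    _ = 2 * exp 1 * C₀ ^ 2 * (min 1 (q ^ 3) * exp (-(π * q ^ 2 / 2))) *
          (exp (-q) * (1 - exp (-q))) := by ring

theorem stPoi : StPoi := by
  refine ⟨⟨3 / 2, by norm_num, fun s a hs => mu_le hs a⟩, fun B hB1 => ?_, ?_⟩
  · have hB : 0 < B := by linarith
    exact ⟨2 * exp 1 * ((16 * π ^ 2 * B ^ 2 + 2 * π + 1) * exp (π / 2)) ^ 2, by positivity,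
      fun s a hs => kh_sub_sq_le hB hs a⟩
  · intro r hr A A' hA hA' hAA hv
    have H := kh_poisson hr
    have hvA : volume A < ⊤ := (measure_mono hAA).trans_lt hv
    refine ⟨QG_step H hA hAA hv, ?_, ?_⟩
    · have := QG_nonneg H A A
      rw [← QG_self H hvA] at this
      exact this
    · have := QG_le H (A' := A) hvA
      rw [← QG_self H hvA] at this
      exact this

theorem stMaxP : StMaxP := by
  intro B hB1
  have hB : 0 < B := by linarith
  set C₁ := 2 * exp 1 * ((16 * π ^ 2 * B ^ 2 + 2 * π + 1) * exp (π / 2)) ^ 2 with hC₁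
  have hC₁0 : 0 < C₁ := by positivity
  refine ⟨2 * C₁, by positivity, ?_⟩
  intro N s hs hss A hAm hAA hv U hU hUi hUi' lam hlam
  have hmono : ∀ i ≤ N, A i ⊆ A N := by
    intro i hi
    exact monotone_nat_of_le_succ hAA hi
  have hvi : ∀ i ≤ N, volume (A i) < ⊤ := fun i hi => (measure_mono (hmono i hi)).trans_lt hv
  have hD : ∀ i a, 0 ≤ kh B (s i) a - kh B (2 * s i) a := fun i a => kh_sub_nonneg hB (hs i) a
  have HP : ∀ i, KH (fun a => exp (-(s i * |a|))) (Pk (s i)) := fun i => kh_poisson (hs i)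
  -- each term
  have hterm : ∀ i ∈ Finset.range (N + 1),
      (∫ x in A i, (∫ a, ((kh B (s i) a - kh B (2 * s i) a : ℝ) : ℂ) * U i a * ex (x * a)).re)
      ≤ lam / 8 * ((∫ a, exp (-(s i * |a|)) * ‖FA (A i) a‖ ^ 2)
          - ∫ a, exp (-(s (i + 1) * |a|)) * ‖FA (A i) a‖ ^ 2)
        + 2 * C₁ / lam * ∫ a, mu (s i) a * ‖U i a‖ ^ 2 := by
    intro i hi
    have hiN : i ≤ N := by have := Finset.mem_range.1 hi; omega
    have hvA := hvi i hiN
    have hf := hUi' i
    have hinn : Integrable (fun x => ∫ a, ((kh B (s i) a - kh B (2 * s i) a : ℝ) : ℂ) * U i a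
        * ex (x * a)) (volume.restrict (A i)) := by
      have h1 : Integrable (fun _ : ℝ => (1 : ℂ)) (volume.restrict (A i)) :=
        integrableOn_const hvA.ne
      have h2 : Integrable (fun p : ℝ × ℝ =>
          (((kh B (s i) p.2 - kh B (2 * s i) p.2 : ℝ) : ℂ) * U i p.2) * ex (p.1 * p.2))
          ((volume.restrict (A i)).prod volume) := by
        refine ((h1.mul_prod hf).mul_bdd (c := 1) (g := fun p : ℝ × ℝ => ex (p.1 * p.2))
          (continuous_ex.comp (by fun_prop)).aestronglyMeasurable (ae_of_all _ fun p => ?_)).congr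
          (ae_of_all _ fun p => ?_)
        · rw [norm_ex]
        · simp
      exact h2.integral_prod_left
    have hre := integral_re (𝕜 := ℂ) hinn
    simp only [RCLike.re_to_complex] at hre
    rw [hre, swapA hvA hf]
    have hgi : Integrable (fun a => ((kh B (s i) a - kh B (2 * s i) a : ℝ) : ℂ) * U i a
        * conj (FA (A i) a)) := by
      refine hf.mul_bdd (c := (volume (A i)).toReal)
        (Complex.continuous_conj.comp (continuous_FA hvA)).aestronglyMeasurable
        (ae_of_all _ fun a => ?_)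
      rw [RCLike.norm_conj]
      exact norm_FA_le _ _
    have hre2 := integral_re (𝕜 := ℂ) hgi
    simp only [RCLike.re_to_complex] at hre2
    rw [← hre2]
    have hI1 := (HP i).integrable_sq hvA
    have hI2 := (HP (i + 1)).integrable_sq hvA
    have hI12 : Integrable (fun a => exp (-(s i * |a|)) * ‖FA (A i) a‖ ^ 2
        - exp (-(s (i + 1) * |a|)) * ‖FA (A i) a‖ ^ 2) := hI1.sub hI2
    have hrhs : lam / 8 * ((∫ a, exp (-(s i * |a|)) * ‖FA (A i) a‖ ^ 2)
          - ∫ a, exp (-(s (i + 1) * |a|)) * ‖FA (A i) a‖ ^ 2)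
        + 2 * C₁ / lam * ∫ a, mu (s i) a * ‖U i a‖ ^ 2
        = ∫ a, (lam / 8 * (exp (-(s i * |a|)) * ‖FA (A i) a‖ ^ 2
              - exp (-(s (i + 1) * |a|)) * ‖FA (A i) a‖ ^ 2)
            + 2 * C₁ / lam * (mu (s i) a * ‖U i a‖ ^ 2)) := by
      rw [integral_add (hI12.const_mul _) ((hUi i).const_mul _), integral_const_mul,
        integral_const_mul, integral_sub hI1 hI2]
    rw [hrhs]
    refine integral_mono hgi.re ((hI12.const_mul _).add ((hUi i).const_mul _)) fun a => ?_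
    simp only
    have hd := hD i a
    have hsq := kh_sub_sq_le hB (hs i) a
    rw [← hC₁] at hsq
    have hss' : exp (-(s (i + 1) * |a|)) = exp (-(2 * s i * |a|)) := by rw [hss i]
    rw [hss']
    have hp0 : 0 ≤ exp (-(s i * |a|)) - exp (-(2 * s i * |a|)) := by
      refine sub_nonneg.2 (exp_le_exp.2 ?_)
      have := mul_nonneg (hs i).le (abs_nonneg a)
      linarith
    have hmu0 : 0 ≤ mu (s i) a := by
      unfold mu
      have := (hs i).le
      positivity
    set D := kh B (s i) a - kh B (2 * s i) a with hDdef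
    set p := exp (-(s i * |a|)) - exp (-(2 * s i * |a|)) with hpdef
    set m := mu (s i) a
    set u := U i a
    set v := FA (A i) a
    have h1 : ((D : ℂ) * u * conj v).re ≤ D * (‖u‖ * ‖v‖) := by
      rw [mul_assoc, Complex.re_ofReal_mul]
      refine mul_le_mul_of_nonneg_left ?_ hd
      refine (Complex.re_le_norm _).trans ?_
      rw [norm_mul, RCLike.norm_conj]
    have h2 : D * (‖u‖ * ‖v‖) ≤ lam / 8 * (p * ‖v‖ ^ 2) + 2 * C₁ / lam * (m * ‖u‖ ^ 2) := by
      have hX : 0 ≤ lam / 8 * (p * ‖v‖ ^ 2) := by positivity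
      have hY : 0 ≤ 2 * C₁ / lam * (m * ‖u‖ ^ 2) := by positivity
      refine abs_le_of_sq_le_sq' ?_ (add_nonneg hX hY) |>.2
      calc (D * (‖u‖ * ‖v‖)) ^ 2 = D ^ 2 * (‖u‖ ^ 2 * ‖v‖ ^ 2) := by ring
        _ ≤ (C₁ * m * p) * (‖u‖ ^ 2 * ‖v‖ ^ 2) := by gcongr
        _ = 4 * ((lam / 8 * (p * ‖v‖ ^ 2)) * (2 * C₁ / lam * (m * ‖u‖ ^ 2))) := by
            field_simp
            ring
        _ ≤ (lam / 8 * (p * ‖v‖ ^ 2) + 2 * C₁ / lam * (m * ‖u‖ ^ 2)) ^ 2 := by
            nlinarith [sq_nonneg (lam / 8 * (p * ‖v‖ ^ 2) - 2 * C₁ / lam * (m * ‖u‖ ^ 2))]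
    calc ((D : ℂ) * u * conj v).re ≤ D * (‖u‖ * ‖v‖) := h1
      _ ≤ lam / 8 * (p * ‖v‖ ^ 2) + 2 * C₁ / lam * (m * ‖u‖ ^ 2) := h2
      _ = _ := by rw [hpdef]; ring
  have hsum := Finset.sum_le_sum hterm
  rw [Finset.sum_add_distrib, ← Finset.mul_sum, ← Finset.mul_sum] at hsum
  have habel := sum_QG_le N (k := fun i a => exp (-(s i * |a|))) HP hAm hAA hv
  have hlast : 0 ≤ ∫ a, exp (-(s (N + 1) * |a|)) * ‖FA (A N) a‖ ^ 2 :=
    integral_nonneg fun a => mul_nonneg (exp_pos _).le (sq_nonneg _)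
  have h8 : lam / 8 * ∑ i ∈ Finset.range (N + 1),
        ((∫ a, exp (-(s i * |a|)) * ‖FA (A i) a‖ ^ 2)
          - ∫ a, exp (-(s (i + 1) * |a|)) * ‖FA (A i) a‖ ^ 2)
      ≤ lam / 8 * (2 * (volume (A N)).toReal) :=
    mul_le_mul_of_nonneg_left (by linarith) (by positivity)
  calc _ ≤ _ := hsum
    _ ≤ lam / 8 * (2 * (volume (A N)).toReal) + 2 * C₁ / lam *
      ∑ i ∈ Finset.range (N + 1), ∫ a, mu (s i) a * ‖U i a‖ ^ 2 := by
        linarith
    _ = _ := by ring

end Vale.Agent.P076.H263
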