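/-
P076 / helper263: the binary (time) tree inequality of the reduction P0.

`m k l` is the mass of the node `l` of level `k` of the binary tree (`l < 2 ^ k`), with children
`2 * l`, `2 * l + 1` of level `k + 1`.  `lt m k l` is the mass of the lighter child and
`hv m j k l` the index of the node of level `k + j` obtained from `(k, l)` by following `j` times
the heavier child.
-/
import Mathlib

namespace Vale.Agent.P076.H263

open Finset

/-- The mass of the lighter child of the node `(k, l)`. -/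
noncomputable def lt (m : ℕ → ℕ → ℝ) (k l : ℕ) : ℝ :=
  min (m (k + 1) (2 * l)) (m (k + 1) (2 * l + 1))

/-- The index of the `j`-th heavy descendant of the node `(k, l)` (a node of level `k + j`). -/
noncomputable def hv (m : ℕ → ℕ → ℝ) : ℕ → ℕ → ℕ → ℕ
  | 0, _, l => l
  | j + 1, k, l =>
    if m (k + j + 1) (2 * hv m j k l + 1) ≤ m (k + j + 1) (2 * hv m j k l) then
      2 * hv m j k l
    else 2 * hv m j k l + 1

@[simp] theorem hv_zero (m : ℕ → ℕ → ℝ) (k l : ℕ) : hv m 0 k l = l := rfl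

theorem hv_succ (m : ℕ → ℕ → ℝ) (j k l : ℕ) :
    hv m (j + 1) k l =
      if m (k + j + 1) (2 * hv m j k l + 1) ≤ m (k + j + 1) (2 * hv m j k l) then
        2 * hv m j k l
      else 2 * hv m j k l + 1 := rfl

theorem hv_succ_div (m : ℕ → ℕ → ℝ) (j k l : ℕ) : hv m (j + 1) k l / 2 = hv m j k l := by
  rw [hv_succ]
  split_ifs <;> omega

/-- The ancestor of a heavy descendant is the node we started from. -/
theorem hv_div (m : ℕ → ℕ → ℝ) (j k l : ℕ) : hv m j k l / 2 ^ j = l := by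
  induction j with
  | zero => simp
  | succ j ih =>
    rw [pow_succ', ← Nat.div_div_eq_div_mul, hv_succ_div, ih]

theorem hv_lt (m : ℕ → ℕ → ℝ) (j k l : ℕ) (hl : l < 2 ^ k) : hv m j k l < 2 ^ (k + j) := by
  have h := hv_div m j k l
  have h2 : hv m j k l < (l + 1) * 2 ^ j := by
    have := Nat.lt_mul_div_succ (hv m j k l) (b := 2 ^ j) (by positivity)
    rw [h] at this
    linarith [Nat.mul_comm (2 ^ j) (l + 1)]
  calc hv m j k l < (l + 1) * 2 ^ j := h2
    _ ≤ 2 ^ k * 2 ^ j := Nat.mul_le_mul_right _ hl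
    _ = 2 ^ (k + j) := (pow_add 2 k j).symm

theorem hv_inj (m : ℕ → ℕ → ℝ) (j k : ℕ) {l l' : ℕ} (h : hv m j k l = hv m j k l') : l = l' := by
  rw [← hv_div m j k l, ← hv_div m j k l', h]

/-- The elementary convexity gain: `(a+b)^{1+d} ≥ a^{1+d} + b^{1+d} + d min(a,b)^{1+d}`. -/
theorem rpow_add_gain {a b d : ℝ} (ha : 0 ≤ a) (hb : 0 ≤ b) (hd : 0 ≤ d) :
    a ^ (1 + d) + b ^ (1 + d) + d * (min a b) ^ (1 + d) ≤ (a + b) ^ (1 + d) := by
  -- we may assume `b ≤ a`
  have key : ∀ a b : ℝ, 0 ≤ a → 0 ≤ b → b ≤ a →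
      a ^ (1 + d) + b ^ (1 + d) + d * b ^ (1 + d) ≤ (a + b) ^ (1 + d) := by
    intro a b ha hb hba
    rcases eq_or_lt_of_le ha with h0 | ha0
    · subst h0
      have hb0 : b = 0 := le_antisymm hba hb
      subst hb0
      simp [Real.zero_rpow (by linarith : (1 + d : ℝ) ≠ 0)]
    · have hB : 1 + (1 + d) * (b / a) ≤ (1 + b / a) ^ (1 + d) :=
        one_add_mul_self_le_rpow_one_add (by have := div_nonneg hb ha; linarith) (by linarith)
      have hsum : (a + b) ^ (1 + d) = a ^ (1 + d) * (1 + b / a) ^ (1 + d) := by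
        rw [← Real.mul_rpow ha (by have := div_nonneg hb ha; linarith)]
        congr 1
        field_simp
      have hpa : 0 ≤ a ^ (1 + d) := Real.rpow_nonneg ha _
      have h1 : a ^ (1 + d) * (b / a) = a ^ d * b := by
        rw [Real.rpow_add ha0, Real.rpow_one]
        field_simp
      have h2 : b ^ (1 + d) ≤ a ^ d * b := by
        rcases eq_or_lt_of_le hb with h0 | hb0
        · subst h0
          simp [Real.zero_rpow (by linarith : (1 + d : ℝ) ≠ 0)]
        · rw [Real.rpow_add hb0, Real.rpow_one, mul_comm b]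
          exact mul_le_mul_of_nonneg_right (Real.rpow_le_rpow hb hba hd) hb
      calc a ^ (1 + d) + b ^ (1 + d) + d * b ^ (1 + d)
          = a ^ (1 + d) + (1 + d) * b ^ (1 + d) := by ring
        _ ≤ a ^ (1 + d) + (1 + d) * (a ^ d * b) := by
            have : 0 ≤ 1 + d := by linarith
            nlinarith [mul_le_mul_of_nonneg_left h2 this]
        _ = a ^ (1 + d) * (1 + (1 + d) * (b / a)) := by rw [← h1]; ring
        _ ≤ a ^ (1 + d) * (1 + b / a) ^ (1 + d) := mul_le_mul_of_nonneg_left hB hpa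
        _ = (a + b) ^ (1 + d) := hsum.symm
  rcases le_total a b with hab | hab
  · rw [min_eq_left hab]
    have := key b a hb ha hab
    rw [add_comm b a] at this
    linarith
  · rw [min_eq_right hab]
    exact key a b ha hb hab

/-- Splitting a sum over `2 ^ (k+1)` nodes into the two children of the nodes of level `k`. -/
theorem sum_range_two_pow_succ (f : ℕ → ℝ) (k : ℕ) :
    ∑ p ∈ range (2 ^ (k + 1)), f p = ∑ p ∈ range (2 ^ k), (f (2 * p) + f (2 * p + 1)) := by
  have h : ∀ N : ℕ, ∑ p ∈ range (2 * N), f p = ∑ p ∈ range N, (f (2 * p) + f (2 * p + 1)) := by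
    intro N
    induction N with
    | zero => simp
    | succ N ih =>
      rw [show 2 * (N + 1) = 2 * N + 1 + 1 by ring, sum_range_succ, sum_range_succ, ih,
        sum_range_succ]
      ring
  rw [pow_succ']
  exact h _

/-- The telescoping estimate: the total of the light children. -/
theorem sum_lt_le {m : ℕ → ℕ → ℝ} (hm : ∀ k l, 0 ≤ m k l)
    (hadd : ∀ k l, m k l = m (k + 1) (2 * l) + m (k + 1) (2 * l + 1)) {d : ℝ} (hd : 0 < d)
    (N : ℕ) :
    ∑ k ∈ range N, ∑ l ∈ range (2 ^ k), (lt m k l) ^ (1 + d) ≤ (1 / d) * (m 0 0) ^ (1 + d) := by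
  have hstep : ∀ N : ℕ,
      d * ∑ k ∈ range N, ∑ l ∈ range (2 ^ k), (lt m k l) ^ (1 + d)
        + ∑ l ∈ range (2 ^ N), (m N l) ^ (1 + d) ≤ (m 0 0) ^ (1 + d) := by
    intro N
    induction N with
    | zero => simp
    | succ N ih =>
      refine le_trans ?_ ih
      rw [sum_range_succ, mul_add, add_assoc]
      refine add_le_add le_rfl ?_
      rw [sum_range_two_pow_succ, mul_sum, ← sum_add_distrib]
      refine sum_le_sum fun l _ => ?_
      have := rpow_add_gain (hm (N + 1) (2 * l)) (hm (N + 1) (2 * l + 1)) hd.le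
      rw [← hadd N l] at this
      unfold lt
      linarith
  have h := hstep N
  have hnn : 0 ≤ ∑ l ∈ range (2 ^ N), (m N l) ^ (1 + d) :=
    sum_nonneg fun l _ => Real.rpow_nonneg (hm _ _) _
  rw [one_div, ← div_eq_inv_mul, le_div_iff₀ hd]
  linarith

/-- Partial geometric sums with ratio `2 ^ (-c)`. -/
theorem sum_two_rpow_neg_le {c : ℝ} (hc : 0 < c) (J : ℕ) :
    ∑ j ∈ range J, (2 : ℝ) ^ (-c * (j : ℝ)) ≤ 1 / (1 - 2 ^ (-c)) := by
  have hr0 : (0 : ℝ) ≤ 2 ^ (-c) := by positivity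
  have hr1 : (2 : ℝ) ^ (-c) < 1 := Real.rpow_lt_one_of_one_lt_of_neg (by norm_num) (by linarith)
  have h : ∀ j : ℕ, (2 : ℝ) ^ (-c * (j : ℝ)) = ((2 : ℝ) ^ (-c)) ^ j := by
    intro j
    rw [Real.rpow_mul (by norm_num), Real.rpow_natCast]
  simp_rw [h]
  rw [one_div]
  have hs := summable_geometric_of_lt_one hr0 hr1
  calc ∑ j ∈ range J, ((2 : ℝ) ^ (-c)) ^ j ≤ ∑' j, ((2 : ℝ) ^ (-c)) ^ j :=
        hs.sum_le_tsum _ fun j _ => by positivity
    _ = (1 - 2 ^ (-c))⁻¹ := tsum_geometric_of_lt_one hr0 hr1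

/-- **Binary tree inequality** (`P0.TREE`).  For a mass function on the binary tree, the light
children met along the heavy paths, weighted by `2^{-cj}`, have a bounded `(1+d)`-sum. -/
theorem tree_sum_le {m : ℕ → ℕ → ℝ} (hm : ∀ k l, 0 ≤ m k l)
    (hadd : ∀ k l, m k l = m (k + 1) (2 * l) + m (k + 1) (2 * l + 1)) {c d : ℝ} (hd : 0 < d)
    (hc : 0 < c) (K J : ℕ) :
    ∑ k ∈ range K, ∑ l ∈ range (2 ^ k), ∑ j ∈ range J,
        (2 : ℝ) ^ (-c * (j : ℝ)) * (lt m (k + j) (hv m j k l)) ^ (1 + d)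
      ≤ (1 / (d * (1 - 2 ^ (-c)))) * (m 0 0) ^ (1 + d) := by
  have hr1 : (2 : ℝ) ^ (-c) < 1 := Real.rpow_lt_one_of_one_lt_of_neg (by norm_num) (by linarith)
  have hlt0 : ∀ k l, 0 ≤ lt m k l := fun k l => le_min (hm _ _) (hm _ _)
  have hA : 0 ≤ (1 / d) * (m 0 0) ^ (1 + d) :=
    mul_nonneg (by positivity) (Real.rpow_nonneg (hm _ _) _)
  -- exchange the sums
  have hswap : ∑ k ∈ range K, ∑ l ∈ range (2 ^ k), ∑ j ∈ range J,
        (2 : ℝ) ^ (-c * (j : ℝ)) * (lt m (k + j) (hv m j k l)) ^ (1 + d)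
      = ∑ j ∈ range J, (2 : ℝ) ^ (-c * (j : ℝ)) *
          ∑ k ∈ range K, ∑ l ∈ range (2 ^ k), (lt m (k + j) (hv m j k l)) ^ (1 + d) := by
    calc _ = ∑ k ∈ range K, ∑ j ∈ range J, ∑ l ∈ range (2 ^ k),
          (2 : ℝ) ^ (-c * (j : ℝ)) * (lt m (k + j) (hv m j k l)) ^ (1 + d) :=
          sum_congr rfl fun k _ => sum_comm
      _ = ∑ j ∈ range J, ∑ k ∈ range K, ∑ l ∈ range (2 ^ k),
          (2 : ℝ) ^ (-c * (j : ℝ)) * (lt m (k + j) (hv m j k l)) ^ (1 + d) := sum_comm
      _ = _ := by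
          refine sum_congr rfl fun j _ => ?_
          rw [mul_sum]
          exact sum_congr rfl fun k _ => (mul_sum _ _ _).symm
  -- for fixed `j`, the heavy descendants are distinct nodes
  have hinner : ∀ j ∈ range J,
      ∑ k ∈ range K, ∑ l ∈ range (2 ^ k), (lt m (k + j) (hv m j k l)) ^ (1 + d)
        ≤ (1 / d) * (m 0 0) ^ (1 + d) := by
    intro j _
    refine le_trans ?_ (sum_lt_le hm hadd hd (K + j))
    have h1 : ∀ k ∈ range K,
        ∑ l ∈ range (2 ^ k), (lt m (k + j) (hv m j k l)) ^ (1 + d)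
          ≤ ∑ p ∈ range (2 ^ (k + j)), (lt m (k + j) p) ^ (1 + d) := by
      intro k _
      rw [← sum_image (s := range (2 ^ k)) (g := fun l => hv m j k l)
        (f := fun p => (lt m (k + j) p) ^ (1 + d)) (fun a _ b _ h => hv_inj m j k h)]
      refine sum_le_sum_of_subset_of_nonneg ?_ fun p _ _ => Real.rpow_nonneg (hlt0 _ _) _
      intro p hp
      obtain ⟨l, hl, rfl⟩ := mem_image.1 hp
      exact mem_range.2 (hv_lt m j k l (mem_range.1 hl))
    refine le_trans (sum_le_sum h1) ?_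
    have h2 : ∑ k ∈ range K, ∑ p ∈ range (2 ^ (k + j)), (lt m (k + j) p) ^ (1 + d)
        = ∑ n ∈ (range K).image (fun k => k + j), ∑ p ∈ range (2 ^ n), (lt m n p) ^ (1 + d) := by
      rw [sum_image (fun a _ b _ h => by simpa using h)]
    rw [h2]
    refine sum_le_sum_of_subset_of_nonneg ?_ fun n _ _ =>
      sum_nonneg fun p _ => Real.rpow_nonneg (hlt0 _ _) _
    intro n hn
    obtain ⟨k, hk, rfl⟩ := mem_image.1 hn
    have := mem_range.1 hk
    exact mem_range.2 (by omega)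
  rw [hswap]
  calc ∑ j ∈ range J, (2 : ℝ) ^ (-c * (j : ℝ)) *
          ∑ k ∈ range K, ∑ l ∈ range (2 ^ k), (lt m (k + j) (hv m j k l)) ^ (1 + d)
      ≤ ∑ j ∈ range J, (2 : ℝ) ^ (-c * (j : ℝ)) * ((1 / d) * (m 0 0) ^ (1 + d)) :=
        sum_le_sum fun j hj => mul_le_mul_of_nonneg_left (hinner j hj) (by positivity)
    _ = (∑ j ∈ range J, (2 : ℝ) ^ (-c * (j : ℝ))) * ((1 / d) * (m 0 0) ^ (1 + d)) := by
        rw [sum_mul]
    _ ≤ (1 / (1 - 2 ^ (-c))) * ((1 / d) * (m 0 0) ^ (1 + d)) :=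
        mul_le_mul_of_nonneg_right (sum_two_rpow_neg_le hc J) hA
    _ = (1 / (d * (1 - 2 ^ (-c)))) * (m 0 0) ^ (1 + d) := by
        have h1 : (1 - (2 : ℝ) ^ (-c)) ≠ 0 := by linarith
        field_simp

end Vale.Agent.P076.H263
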